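import Vale.Agent.P092.H678.O.End
import Vale.Agent.P092.H34.PicE
import Vale.Agent.P092.H515.LatSl
import Vale.Agent.P092.UN.Eqv

/-!
P092 (helper678), [OV]: the interface for the final classes: `HasOver Γ` (an infinite lattice of a
group with the core statement for systems) and its ICC overgroups of finite index.
-/

set_option linter.all false

open MeasureTheory

namespace Vale.Agent.P092.H678.OV

/-- `Γ` is an infinite lattice of a group `E` with `OverStmt E`. -/
def HasOver (Γ : Type) [Group Γ] : Prop :=
  Infinite Γ ∧ ∃ (E : Type) (_ : Group E) (_ : TopologicalSpace E) (i : Γ →* E),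
    OverStmt E ∧ Function.Injective i ∧ H515.St.IsLattice i.range

/-- **ICC groups with a subgroup of finite index in the class.** -/
theorem superAll_virt {Γ : Type} [Group Γ] (hicc : UN.ICC Γ) {Γ₀ : Subgroup Γ}
    (hfi : Γ₀.FiniteIndex) (h : HasOver Γ₀) : UN.SuperAll Γ := by
  obtain ⟨hinf, E, _, _, i, hE, hi, hl⟩ := h
  haveI : Infinite Γ := Infinite.of_injective (Subtype.val : Γ₀ → Γ) Subtype.val_injective
  exact UN.superAll_of (superAll_fi hE hicc Γ₀ i hi hl)

/-- the class itself -/
theorem HasOver.equiv {Γ Γ' : Type} [Group Γ] [Group Γ'] (e : Γ' ≃* Γ) (h : HasOver Γ) :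
    HasOver Γ' := by
  obtain ⟨hinf, E, _, _, i, hE, hi, hl⟩ := h
  haveI := hinf
  refine ⟨Infinite.of_injective e.symm e.symm.injective, E, inferInstance, inferInstance,
    i.comp e.toMonoidHom, hE, hi.comp e.injective, ?_⟩
  have h1 : (i.comp e.toMonoidHom).range = i.range := by
    ext x
    constructor
    · rintro ⟨y, rfl⟩
      exact ⟨e y, rfl⟩
    · rintro ⟨y, rfl⟩
      exact ⟨e.symm y, congrArg i (e.apply_symm_apply y)⟩
  rw [h1]
  exact hl

theorem superAll_hasOver {Γ : Type} [Group Γ] (hicc : UN.ICC Γ) (h : HasOver Γ) :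
    UN.SuperAll Γ :=
  superAll_virt hicc (Γ₀ := ⊤) inferInstance (h.equiv Subgroup.topEquiv)

section lat

variable {E : Type} [Group E] [TopologicalSpace E] [IsTopologicalGroup E] [LocallyCompactSpace E]
  [SecondCountableTopology E] [T2Space E] [NoncompactSpace E]

/-- a lattice of a noncompact group is infinite -/
theorem infinite_lattice {Γ : Subgroup E} (h : H515.St.IsLattice Γ) : Infinite Γ := by
  letI : MeasurableSpace E := borel _
  haveI : BorelSpace E := ⟨rfl⟩
  haveI hd : DiscreteTopology Γ := h.disc
  letI : MeasurableSpace (E ⧸ Γ) := borel _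
  haveI : BorelSpace (E ⧸ Γ) := ⟨rfl⟩
  obtain ⟨ν, hP', hν⟩ := H515.IsLattice.exists_prob (Λ := Γ) ⟨h.disc, h.covol⟩
  exact H34.PicC.infinite_lat hν

/-- **lattices of a noncompact group with the core statement** -/
theorem hasOver_of (hE : OverStmt E) {Γ : Type} [Group Γ] (i : Γ →* E)
    (hi : Function.Injective i) (hl : H515.St.IsLattice i.range) : HasOver Γ := by
  haveI := infinite_lattice hl
  exact ⟨Infinite.of_injective (MonoidHom.ofInjective hi).symm
    (MonoidHom.ofInjective hi).symm.injective, E, inferInstance, inferInstance, i, hE, hi, hl⟩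

end lat

end Vale.Agent.P092.H678.OV
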