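import Vale.Agent.P092.H678.O.Cls
import Vale.Agent.P092.H458.O.P
import Vale.Agent.P092.SPC.Over
import Vale.Agent.P092.SPC.UnC3

/-!
P092 (helper678), [OV]: the class LatticeC3 (ICC lattices of `Sp_4(k)/Z`) and all its ICC
overgroups of finite index.
-/

set_option linter.all false

open Matrix Filter Topology

namespace Vale.Agent.P092.H678.OV

open Vale.Agent.P092.H684.Psp (PSp4 NC.pq lat_pq)
open Vale.Agent.P092.SPC (quo_iso)

theorem hasOver_quo4 {k : Type} [NontriviallyNormedField k] [ProperSpace k]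
    (h : OverStmt (PSp4 k)) {E : Type} [Group E] [TopologicalSpace E]
    (hE : UN.Quo (symplecticGroup (Fin 2) k) E) {Γ : Type} [Group Γ] (hicc : UN.ICC Γ)
    (i : Γ →* E) (hi : Function.Injective i) (hl : UN.IsLattice i.range) : HasOver Γ := by
  obtain ⟨i', hi', hl'⟩ := lat_pq (UN.nc_quo4 (UN.quo_S4 hE)).pq hicc i hi
    ((UN.isLattice_iff _).1 hl)
  haveI : NoncompactSpace (PSp4 k) := SP.nc_E (H714.AdmS4.adm_quo _ (H684.Psp.scc k))
  exact hasOver_of h i' hi' hl'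

/-- **The class `LatticeC3`.** -/
theorem hasOver_latticeC3 : ∀ (Γ : Type) [Group Γ], UN.LatticeC3 Γ → HasOver Γ := by
  rintro Γ _ ⟨hicc, E, _, _, i, ⟨k, _, _, hk, h2, ht⟩, hi, hl⟩
  rcases hk with ⟨φ, h⟩ | ⟨φ, h⟩ | hu
  · exact hasOver_quo4 H458.OV.P.overStmt_pspR (quo_iso φ h ht) hicc i hi hl
  · exact hasOver_quo4 SPC.OV.overStmt_pspC (quo_iso φ h ht) hicc i hi hl
  · exact hasOver_quo4 (H458.OV.P.overStmt_pspU hu h2) ht hicc i hi hl

/-- **ICC overgroups of finite index of the class `LatticeC3`.** -/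
theorem superAll_virtC3 {Γ : Type} [Group Γ] (hicc : UN.ICC Γ) {Γ₀ : Subgroup Γ}
    (hfi : Γ₀.FiniteIndex) (h : UN.LatticeC3 Γ₀) : UN.SuperAll Γ :=
  superAll_virt hicc hfi (hasOver_latticeC3 _ h)

end Vale.Agent.P092.H678.OV
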