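import Vale.Agent.P092.H678.O.Res

/-!
P092 (helper678), [OV]: compression of a system by an isometry whose range projection commutes with
the three representations.
-/

set_option linter.all false

open scoped InnerProductSpace ENNReal
open Filter Topology ContinuousLinearMap

namespace Vale.Agent.P092.H678.OV

open Vale.Agent.P092.SR (Tri)
open Vale.Agent.P092.H421.Hs

section cmp

variable {Γ ℋ L : Type} [Group Γ] [NormedAddCommGroup ℋ] [InnerProductSpace ℂ ℋ] [CompleteSpace ℋ]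
  [NormedAddCommGroup L] [InnerProductSpace ℂ L] [CompleteSpace L]

/-- `W` is an isometry whose range is invariant under `V` -/
structure Iso (W : L →L[ℂ] ℋ) (V : Γ →* (ℋ →L[ℂ] ℋ)) : Prop where
  one : ∀ v, adjoint W (W v) = v
  cm : ∀ g v, W (adjoint W (V g v)) = V g (W (adjoint W v))

variable {W : L →L[ℂ] ℋ} {V R₁ R₂ R : Γ →* (ℋ →L[ℂ] ℋ)}

/-- the compression -/
noncomputable def cmp (h : Iso W V) : Γ →* (L →L[ℂ] L) where
  toFun g := adjoint W ∘L (V g ∘L W)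
  map_one' := by
    ext1 v
    change adjoint W (V 1 (W v)) = v
    rw [map_one]
    exact h.one v
  map_mul' a b := by
    ext1 v
    change adjoint W (V (a * b) (W v)) = adjoint W (V a (W (adjoint W (V b (W v)))))
    rw [h.cm, h.one, ap_mul]

theorem cmp_ap (h : Iso W V) (g : Γ) (v : L) : cmp h g v = adjoint W (V g (W v)) := rfl

theorem W_cmp (h : Iso W V) (g : Γ) (v : L) : W (cmp h g v) = V g (W v) := by
  rw [cmp_ap, h.cm, h.one]

theorem WW (h : Iso W V) (v : ℋ) : adjoint W (W (adjoint W v)) = adjoint W v := h.one _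

theorem cmp_adjW (h : Iso W V) (g : Γ) (v : ℋ) : cmp h g (adjoint W v) = adjoint W (V g v) := by
  rw [cmp_ap, ← h.cm, h.one]

theorem W_norm (h : Iso W V) (v : L) : ‖W v‖ = ‖v‖ := by
  have h1 : ⟪W v, W v⟫_ℂ = ⟪v, v⟫_ℂ := by rw [← adjoint_inner_right, h.one]
  rw [inner_self_eq_norm_sq_to_K, inner_self_eq_norm_sq_to_K] at h1
  have h2 : ‖W v‖ ^ 2 = ‖v‖ ^ 2 := by exact_mod_cast h1
  exact (pow_left_inj₀ (norm_nonneg _) (norm_nonneg _) two_ne_zero).mp h2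

theorem cmp_adj (h : Iso W V) (ha : ∀ g, adjoint (V g) = V g⁻¹) (g : Γ) :
    adjoint (cmp h g) = cmp h g⁻¹ := by
  symm
  rw [ContinuousLinearMap.eq_adjoint_iff]
  intro x y
  rw [cmp_ap, cmp_ap, adjoint_inner_left, adjoint_inner_right, ← ha, adjoint_inner_left]

theorem cmp_comm (h₁ : Iso W R₁) (h₂ : Iso W R₂) (hc : ∀ g h, R₁ g * R₂ h = R₂ h * R₁ g) (a b : Γ) :
    cmp h₁ a * cmp h₂ b = cmp h₂ b * cmp h₁ a := by
  ext1 v
  change cmp h₁ a (cmp h₂ b v) = cmp h₂ b (cmp h₁ a v)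
  rw [cmp_ap h₁, W_cmp h₂, cmp_ap h₂ b, W_cmp h₁, comm_ap (hc a b)]

theorem tri_cmp [Nontrivial L] {κ : Type} [Fintype κ] {ξ : κ → ℋ} (hV : Iso W V) (h₁ : Iso W R₁)
    (h₂ : Iso W R₂) (h : Tri V R₁ R₂ ξ) :
    Tri (cmp hV) (cmp h₁) (cmp h₂) (fun k => adjoint W (ξ k)) := by
  have hf : ∀ η : L, HasSum (fun p : κ × Γ × Γ =>
      ‖⟪cmp h₁ p.2.1 (cmp h₂ p.2.2 (adjoint W (ξ p.1))), η⟫_ℂ‖ ^ 2) (‖η‖ ^ 2) := by
    intro η
    have h1 := h.frame (W η)
    rw [W_norm hV] at h1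
    refine h1.congr_fun ?_ |> id
    rintro ⟨k, a, b⟩
    change ‖⟪cmp h₁ a (cmp h₂ b (adjoint W (ξ k))), η⟫_ℂ‖ ^ 2 = ‖⟪R₁ a (R₂ b (ξ k)), W η⟫_ℂ‖ ^ 2
    rw [cmp_adjW, cmp_adjW, adjoint_inner_left]
  refine ⟨cmp_adj hV h.adjV, cmp_adj h₁ h.adj₁, cmp_adj h₂ h.adj₂, cmp_comm hV h₁ h.comm₁,
    cmp_comm hV h₂ h.comm₂, cmp_comm h₁ h₂ h.comm₁₂, ?_, hf⟩
  by_contra hcon
  push Not at hcon
  obtain ⟨η, hη⟩ := exists_ne (0 : L)
  have h1 := hf η
  have h2 : HasSum (fun p : κ × Γ × Γ =>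
      ‖⟪cmp h₁ p.2.1 (cmp h₂ p.2.2 (adjoint W (ξ p.1))), η⟫_ℂ‖ ^ 2) 0 := by
    have h3 : (fun p : κ × Γ × Γ =>
      ‖⟪cmp h₁ p.2.1 (cmp h₂ p.2.2 (adjoint W (ξ p.1))), η⟫_ℂ‖ ^ 2) = fun _ => 0 := by
      funext p
      rw [hcon, map_zero, map_zero, inner_zero_left, norm_zero]
      norm_num
    rw [h3]
    exact hasSum_zero
  have h4 := h1.unique h2
  have h5 : ‖η‖ ≠ 0 := norm_ne_zero_iff.2 hη
  exact (pow_ne_zero 2 h5) h4

theorem gtri_cmp [Nontrivial L] (hV : Iso W V) (h₁ : Iso W R₁) (h₂ : Iso W R₂)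
    (h : GTri V R₁ R₂) : GTri (cmp hV) (cmp h₁) (cmp h₂) := by
  obtain ⟨κ, _, ξ, h1⟩ := h
  exact ⟨κ, inferInstance, _, tri_cmp hV h₁ h₂ h1⟩

theorem frq_cmp {Q : Type} {e : Q → ℋ} (hR : Iso W R) (h : Frq R e) :
    Frq (cmp hR) (fun q => adjoint W (e q)) := by
  intro η
  have h1 := h (W η)
  have h2 : ‖W η‖ₑ = ‖η‖ₑ := enn_congr (W_norm hR η)
  rw [h2] at h1
  rw [← h1]
  refine tsum_congr ?_
  rintro ⟨q, b⟩
  change ‖⟪cmp hR b (adjoint W (e q)), η⟫_ℂ‖ₑ ^ 2 = ‖⟪R b (e q), W η⟫_ℂ‖ₑ ^ 2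
  rw [cmp_adjW, adjoint_inner_left]

theorem hsq_cmp (hV : Iso W V) (hR : Iso W R) (hRa : ∀ g, adjoint (R g) = R g⁻¹)
    (hf : ∃ (Q : Type) (e : Q → ℋ), Frq R e) (h : Hsq V R) : Hsq (cmp hV) (cmp hR) := by
  obtain ⟨Q, e, he⟩ := hf
  intro Q' e' he' A hAV hAR hA
  set A' : ℋ →L[ℂ] ℋ := W ∘L (A ∘L adjoint W) with hA'
  have hcm : ∀ {U : Γ →* (ℋ →L[ℂ] ℋ)} (hU : Iso W U), (∀ g, A * cmp hU g = cmp hU g * A) →
      ∀ g, A' * U g = U g * A' := by
    intro U hU hc g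
    ext1 v
    change W (A (adjoint W (U g v))) = U g (W (A (adjoint W v)))
    rw [← cmp_adjW hU, comm_ap (hc g), W_cmp]
  have h1 : trq e A' = trq (fun q => adjoint W (e q)) A := by
    refine tsum_congr fun q => ?_
    change ‖W (A (adjoint W (e q)))‖ₑ ^ 2 = ‖A (adjoint W (e q))‖ₑ ^ 2
    rw [enn_congr (W_norm hR _)]
  have h2 : trq (fun q => adjoint W (e q)) A = trq e' A :=
    trq_indep (cmp_adj hR hRa) he' (frq_cmp hR he) hAR
  have h3 := h Q e he A' (hcm hV hAV) (hcm hR hAR) (by rw [h1, h2]; exact hA)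
  ext1 v
  have h4 : adjoint W (A' (W v)) = A v := by
    change adjoint W (W (A (adjoint W (W v)))) = _
    rw [hR.one, hR.one]
  rw [← h4, h3]
  change adjoint W 0 = 0
  rw [map_zero]

theorem irr_cmp (hV : Iso W V) (h₁ : Iso W R₁) (h₂ : Iso W R₂)
    (h : ∀ A : ℋ →L[ℂ] ℋ, (∀ v, A * V v = V v * A) → (∀ g, A * R₁ g = R₁ g * A) →
      (∀ g, A * R₂ g = R₂ g * A) → ∃ z : ℂ, ∀ v, W (adjoint W (A (W (adjoint W v)))) =
        z • W (adjoint W v)) :
    ∀ A : L →L[ℂ] L, (∀ v, A * cmp hV v = cmp hV v * A) → (∀ g, A * cmp h₁ g = cmp h₁ g * A) →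
      (∀ g, A * cmp h₂ g = cmp h₂ g * A) → ∃ z : ℂ, A = z • (1 : L →L[ℂ] L) := by
  intro A hAV hA₁ hA₂
  set A' : ℋ →L[ℂ] ℋ := W ∘L (A ∘L adjoint W) with hA'
  have hcm : ∀ {U : Γ →* (ℋ →L[ℂ] ℋ)} (hU : Iso W U), (∀ g, A * cmp hU g = cmp hU g * A) →
      ∀ g, A' * U g = U g * A' := by
    intro U hU hc g
    ext1 v
    change W (A (adjoint W (U g v))) = U g (W (A (adjoint W v)))
    rw [← cmp_adjW hU, comm_ap (hc g), W_cmp]
  obtain ⟨z, hz⟩ := h A' (hcm hV hAV) (hcm h₁ hA₁) (hcm h₂ hA₂)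
  refine ⟨z, ?_⟩
  ext1 v
  have h1 := congrArg (adjoint W) (hz (W v))
  change adjoint W (W (adjoint W (W (A (adjoint W (W (adjoint W (W v)))))))) =
    adjoint W (z • W (adjoint W (W v))) at h1
  rw [map_smul] at h1
  simp only [hV.one] at h1
  exact h1

/-! ### Bases -/

theorem exists_cb (L : Type) [NormedAddCommGroup L] [InnerProductSpace ℂ L]
    [CompleteSpace L] [TopologicalSpace.SeparableSpace L] :
    ∃ (B : Type) (_ : Countable B), Nonempty (HilbertBasis B ℂ L) := by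
  obtain ⟨w, b, hb⟩ := exists_hilbertBasis ℂ L
  refine ⟨w, ?_, ⟨b⟩⟩
  have ho := b.orthonormal
  refine Pairwise.countable_of_isOpen_disjoint (s := fun i : w => Metric.ball (b i) (1 / 2)) ?_
    (fun i => Metric.isOpen_ball) (fun i => ⟨b i, Metric.mem_ball_self (by norm_num)⟩)
  intro i j hij
  rw [Function.onFun, Set.disjoint_left]
  intro y h1 h2
  rw [Metric.mem_ball] at h1 h2
  have h3 : ‖b i - b j‖ < 1 := by
    rw [← dist_eq_norm]
    calc dist (b i) (b j) ≤ dist (b i) y + dist y (b j) := dist_triangle _ _ _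
      _ = dist y (b i) + dist y (b j) := by rw [dist_comm]
      _ < 1 / 2 + 1 / 2 := add_lt_add h1 h2
      _ = 1 := by norm_num
  have h4 := norm_sub_sq (𝕜 := ℂ) (b i) (b j)
  rw [ho.1, ho.1, ho.2 hij] at h4
  simp only [map_zero, mul_zero, sub_zero] at h4
  nlinarith [norm_nonneg (b i - b j)]

theorem separable_of_basis {I : Type} [Countable I] (b : HilbertBasis I ℂ ℋ) :
    TopologicalSpace.SeparableSpace ℋ := by
  have h1 : TopologicalSpace.IsSeparable (Set.range b) :=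
    (Set.countable_range b).isSeparable
  have h2 := (h1.span (R := ℂ)).closure
  rw [← TopologicalSpace.isSeparable_univ_iff]
  refine h2.mono ?_
  have h3 := b.dense_span
  rw [← Submodule.topologicalClosure_coe, h3]
  exact fun x _ => trivial

theorem basis_cmp (hV : Iso W V) (h : ∃ (B : Type) (_ : Countable B), Nonempty (HilbertBasis B ℂ ℋ)) :
    ∃ (B : Type) (_ : Countable B), Nonempty (HilbertBasis B ℂ L) := by
  obtain ⟨B, _, ⟨b⟩⟩ := h
  haveI h1 : TopologicalSpace.SeparableSpace ℋ := separable_of_basis b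
  haveI h2 : TopologicalSpace.SeparableSpace L := by
    have hs : Function.Surjective (adjoint W : ℋ → L) := fun v => ⟨W v, hV.one v⟩
    exact hs.denseRange.separableSpace (adjoint W).continuous
  exact exists_cb L

end cmp

end Vale.Agent.P092.H678.OV
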