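import Vale.Agent.P092.H962.EqP

/-!
P092 (helper678), [OV]: restriction of an irreducible representation to a subgroup of finite index:
there is a minimal projection in the commutant.
-/

set_option linter.all false

open scoped InnerProductSpace
open ContinuousLinearMap

namespace Vale.Agent.P092.H678.OV

open Vale.Agent.P092.H962.Eq

section cut

variable {G ℋ : Type} [Group G] [NormedAddCommGroup ℋ] [InnerProductSpace ℂ ℋ] [CompleteSpace ℋ]
  (ρ : G →* (ℋ →L[ℂ] ℋ)) (M : Subgroup G)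

/-- the operators of the subgroup -/
def SM : Set (ℋ →L[ℂ] ℋ) := {T | ∃ m ∈ M, T = ρ m}

variable {ρ M}

theorem SM_adj (hρ : ∀ g, adjoint (ρ g) = ρ g⁻¹) : ∀ s ∈ SM ρ M, adjoint s ∈ SM ρ M := by
  rintro _ ⟨m, hm, rfl⟩
  exact ⟨m⁻¹, M.inv_mem hm, hρ m⟩

theorem rho_norm (hρ : ∀ g, adjoint (ρ g) = ρ g⁻¹) (g : G) (v : ℋ) : ‖ρ g v‖ = ‖v‖ := by
  have h1 : ⟪ρ g v, ρ g v⟫_ℂ = ⟪v, v⟫_ℂ := by
    rw [← adjoint_inner_right, hρ]
    have : ρ g⁻¹ (ρ g v) = v := by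
      change (ρ g⁻¹ * ρ g) v = v
      rw [← map_mul, inv_mul_cancel, map_one]; rfl
    rw [this]
  rw [inner_self_eq_norm_sq_to_K, inner_self_eq_norm_sq_to_K] at h1
  have h2 : ‖ρ g v‖ ^ 2 = ‖v‖ ^ 2 := by exact_mod_cast h1
  exact (pow_left_inj₀ (norm_nonneg _) (norm_nonneg _) two_ne_zero).mp h2

variable [Fintype (G ⧸ M)]

/-- the average -/
noncomputable def avg (ρ : G →* (ℋ →L[ℂ] ℋ)) (M : Subgroup G) [Fintype (G ⧸ M)] (A : ℋ →L[ℂ] ℋ) :
    ℋ →L[ℂ] ℋ := ∑ q : G ⧸ M, ρ q.out * A * ρ q.out⁻¹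

theorem conj_coset {A : ℋ →L[ℂ] ℋ} (hA : Cc (SM ρ M) A) {x y : G} (h : (x : G ⧸ M) = y) :
    ρ x * A * ρ x⁻¹ = ρ y * A * ρ y⁻¹ := by
  have h1 : x⁻¹ * y ∈ M := QuotientGroup.eq.1 h
  obtain ⟨m, hm⟩ : ∃ m, m = x⁻¹ * y := ⟨_, rfl⟩
  have h3 : y = x * m := by rw [hm]; group
  rw [← hm] at h1
  have h2 := hA _ ⟨_, h1, rfl⟩
  rw [h3, mul_inv_rev, map_mul, map_mul]
  have h5 : ρ m * ρ m⁻¹ = 1 := by rw [← map_mul, mul_inv_cancel, map_one]
  calc ρ x * A * ρ x⁻¹ = ρ x * (A * (ρ m * ρ m⁻¹)) * ρ x⁻¹ := by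
        rw [h5, mul_one]
    _ = ρ x * ((A * ρ m) * ρ m⁻¹) * ρ x⁻¹ := by simp only [mul_assoc]
    _ = _ := by rw [h2]; simp only [mul_assoc]

theorem avg_comm {A : ℋ →L[ℂ] ℋ} (hA : Cc (SM ρ M) A) (g : G) :
    avg ρ M A * ρ g = ρ g * avg ρ M A := by
  have h1 : ρ g * avg ρ M A * ρ g⁻¹ = avg ρ M A := by
    rw [avg, Finset.mul_sum, Finset.sum_mul]
    have h2 : ∀ q : G ⧸ M, ρ g * (ρ q.out * A * ρ q.out⁻¹) * ρ g⁻¹ =
        (fun q : G ⧸ M => ρ q.out * A * ρ q.out⁻¹) (MulAction.toPerm g q) := by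
      intro q
      change _ = ρ (g • q).out * A * ρ (g • q).out⁻¹
      rw [conj_coset (x := (g • q).out) (y := g * q.out) hA (by
        rw [QuotientGroup.out_eq']
        conv_lhs => rw [← QuotientGroup.out_eq' q]
        rfl)]
      rw [mul_inv_rev, map_mul, map_mul]
      simp only [mul_assoc]
    rw [Finset.sum_congr rfl fun q _ => h2 q]
    exact Equiv.sum_comp (MulAction.toPerm g) fun q : G ⧸ M => ρ q.out * A * ρ q.out⁻¹
  have h3 : ρ g⁻¹ * ρ g = 1 := by rw [← map_mul, inv_mul_cancel, map_one]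
  calc avg ρ M A * ρ g = (ρ g * avg ρ M A * ρ g⁻¹) * ρ g := by rw [h1]
    _ = ρ g * avg ρ M A * (ρ g⁻¹ * ρ g) := by simp only [mul_assoc]
    _ = _ := by rw [h3, mul_one]

/-- the trace-like functional -/
noncomputable def cf (ρ : G →* (ℋ →L[ℂ] ℋ)) (M : Subgroup G) [Fintype (G ⧸ M)] (u₀ : ℋ)
    (A : ℋ →L[ℂ] ℋ) : ℂ := ⟪u₀, avg ρ M A u₀⟫_ℂ

theorem cf_add (u₀ : ℋ) (A B : ℋ →L[ℂ] ℋ) : cf ρ M u₀ (A + B) = cf ρ M u₀ A + cf ρ M u₀ B := by
  rw [cf, cf, cf, ← inner_add_right, ← ContinuousLinearMap.add_apply]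
  congr 2
  rw [avg, avg, avg, ← Finset.sum_add_distrib]
  exact Finset.sum_congr rfl fun q _ => by rw [mul_add, add_mul]

theorem cf_smul (u₀ : ℋ) (z : ℂ) (A : ℋ →L[ℂ] ℋ) : cf ρ M u₀ (z • A) = z * cf ρ M u₀ A := by
  have h1 : avg ρ M (z • A) = z • avg ρ M A := by
    rw [avg, avg, Finset.smul_sum]
    exact Finset.sum_congr rfl fun q _ => by rw [mul_smul_comm, smul_mul_assoc]
  rw [cf, cf, h1, ContinuousLinearMap.smul_apply, inner_smul_right]

/-- the square sums -/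
noncomputable def n2 (ρ : G →* (ℋ →L[ℂ] ℋ)) (M : Subgroup G) [Fintype (G ⧸ M)] (u : ℋ)
    (B : ℋ →L[ℂ] ℋ) : ℝ := ∑ q : G ⧸ M, ‖B (ρ q.out⁻¹ u)‖ ^ 2

theorem cf_sq (hρ : ∀ g, adjoint (ρ g) = ρ g⁻¹) (u : ℋ) (B : ℋ →L[ℂ] ℋ) :
    cf ρ M u (adjoint B * B) = (n2 ρ M u B : ℂ) := by
  rw [cf, avg, ContinuousLinearMap.sum_apply, inner_sum, n2, Complex.ofReal_sum]
  refine Finset.sum_congr rfl fun q _ => ?_
  change ⟪u, ρ q.out (adjoint B (B (ρ q.out⁻¹ u)))⟫_ℂ = _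
  rw [← adjoint_inner_left, hρ, adjoint_inner_right, inner_self_eq_norm_sq_to_K]
  norm_cast

variable (hρ : ∀ g, adjoint (ρ g) = ρ g⁻¹)
  (hirr : ∀ A : ℋ →L[ℂ] ℋ, (∀ g, A * ρ g = ρ g * A) → ∃ z : ℂ, A = z • (1 : ℋ →L[ℂ] ℋ))
  {u₀ : ℋ} (hu : ‖u₀‖ = 1)

include hirr hu in
theorem avg_eq {A : ℋ →L[ℂ] ℋ} (hA : Cc (SM ρ M) A) :
    avg ρ M A = cf ρ M u₀ A • (1 : ℋ →L[ℂ] ℋ) := by
  obtain ⟨z, hz⟩ := hirr _ fun g => avg_comm hA g
  have h1 : cf ρ M u₀ A = z := by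
    rw [cf, hz]
    change ⟪u₀, z • u₀⟫_ℂ = z
    rw [inner_smul_right, inner_self_eq_norm_sq_to_K, hu]
    simp
  rw [h1, hz]

include hρ hirr hu in
theorem sq_le {B : ℋ →L[ℂ] ℋ} (hB : Cc (SM ρ M) B) (v : ℋ) :
    ‖B v‖ ^ 2 ≤ n2 ρ M u₀ B * ‖v‖ ^ 2 := by
  obtain ⟨q₁, hq₁⟩ : ∃ q₁ : G ⧸ M, q₁ = ((1 : G) : G ⧸ M) := ⟨_, rfl⟩
  set u := ρ q₁.out v with hu1
  have h1 : ρ q₁.out⁻¹ u = v := by
    rw [hu1]
    change (ρ q₁.out⁻¹ * ρ q₁.out) v = v
    rw [← map_mul, inv_mul_cancel, map_one]; rfl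
  have h2 : cf ρ M u (adjoint B * B) = (n2 ρ M u₀ B : ℂ) * ‖v‖ ^ 2 := by
    rw [cf, avg_eq hirr hu ((hB.adj (SM_adj hρ)).mul hB), cf_sq hρ]
    change ⟪u, (n2 ρ M u₀ B : ℂ) • u⟫_ℂ = _
    rw [inner_smul_right, inner_self_eq_norm_sq_to_K, hu1, rho_norm hρ]
    rfl
  rw [cf_sq hρ] at h2
  have h3 : n2 ρ M u B = n2 ρ M u₀ B * ‖v‖ ^ 2 := by exact_mod_cast h2
  rw [← h3, n2]
  have h4 := Finset.single_le_sum (f := fun q : G ⧸ M => ‖B (ρ q.out⁻¹ u)‖ ^ 2)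
    (fun q _ => sq_nonneg _) (Finset.mem_univ q₁)
  simp only [h1] at h4
  exact h4

theorem n2_nonneg (u : ℋ) (B : ℋ →L[ℂ] ℋ) : 0 ≤ n2 ρ M u B :=
  Finset.sum_nonneg fun q _ => sq_nonneg _

/-- the projections of the commutant -/
structure Pj (ρ : G →* (ℋ →L[ℂ] ℋ)) (M : Subgroup G) (r : ℋ →L[ℂ] ℋ) : Prop where
  cc : Cc (SM ρ M) r
  adj : adjoint r = r
  sq : r * r = r
  ne : r ≠ 0

include hρ hirr hu in
theorem one_le {r : ℋ →L[ℂ] ℋ} (hr : Pj ρ M r) : 1 ≤ n2 ρ M u₀ r := by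
  obtain ⟨v, hv⟩ : ∃ v, r v ≠ 0 := by
    by_contra h
    push Not at h
    exact hr.ne (by ext1 v; exact h v)
  have h1 := sq_le hρ hirr hu hr.cc (r v)
  have h2 : r (r v) = r v := DFunLike.congr_fun hr.sq v
  rw [h2] at h1
  have h3 : 0 < ‖r v‖ ^ 2 := by positivity
  nlinarith

theorem n2_split {p r : ℋ →L[ℂ] ℋ} (hpa : adjoint p = p) (hpp : p * p = p) (hra : adjoint r = r)
    (hrr : r * r = r) (hpr : p * r = r) (u : ℋ) :
    n2 ρ M u p = n2 ρ M u r + n2 ρ M u (p - r) := by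
  have hrp : r * p = r := by
    have := congrArg adjoint hpr
    rwa [adj_mul', hpa, hra] at this
  rw [n2, n2, n2, ← Finset.sum_add_distrib]
  refine Finset.sum_congr rfl fun q _ => ?_
  set v := ρ q.out⁻¹ u
  have h1 : ⟪r v, (p - r) v⟫_ℂ = 0 := by
    have h0 : r ((p - r) v) = 0 := by
      change (r * (p - r)) v = 0
      rw [mul_sub, hrp, hrr, sub_self]; rfl
    have h00 : ⟪r v, (p - r) v⟫_ℂ = ⟪v, r ((p - r) v)⟫_ℂ := by
      rw [← adjoint_inner_right, hra]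
    rw [h00, h0, inner_zero_right]
  have h2 : p v = r v + (p - r) v := by
    rw [ContinuousLinearMap.sub_apply]; abel
  rw [h2, sq, sq, sq, norm_add_sq_eq_norm_sq_add_norm_sq_of_inner_eq_zero _ _ h1]

include hρ hirr hu in
theorem exists_minP : ∃ p, Pj ρ M p ∧ ∀ r, Pj ρ M r → p * r = r → r = p := by
  set S : Set ℝ := {x | ∃ r, Pj ρ M r ∧ x = n2 ρ M u₀ r} with hS
  have hb : BddBelow S := ⟨0, by rintro _ ⟨r, -, rfl⟩; exact n2_nonneg _ _⟩
  have h1 : Pj ρ M (1 : ℋ →L[ℂ] ℋ) := by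
    refine ⟨Cc.one, star_one _, mul_one _, fun h => ?_⟩
    have := DFunLike.congr_fun h u₀
    change u₀ = 0 at this
    rw [this, norm_zero] at hu
    exact zero_ne_one hu
  have hne : S.Nonempty := ⟨_, 1, h1, rfl⟩
  obtain ⟨_, ⟨p, hp, rfl⟩, hlt⟩ := exists_lt_of_csInf_lt hne (lt_add_one (sInf S))
  refine ⟨p, hp, fun r hr hpr => ?_⟩
  by_contra hne'
  have hrp : r * p = r := by
    have := congrArg adjoint hpr
    rwa [adj_mul', hp.adj, hr.adj] at this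
  have h2 : Pj ρ M (p - r) := by
    refine ⟨hp.cc.sub hr.cc, by rw [map_sub, hp.adj, hr.adj], ?_, fun h => ?_⟩
    · rw [sub_mul, mul_sub, mul_sub, hp.sq, hpr, hrp, hr.sq, sub_self, sub_zero]
    · exact hne' (sub_eq_zero.1 h).symm
  have h3 := n2_split (ρ := ρ) (M := M) hp.adj hp.sq hr.adj hr.sq hpr u₀
  have h4 : sInf S ≤ n2 ρ M u₀ r := csInf_le hb ⟨r, hr, rfl⟩
  have h5 := one_le hρ hirr hu h2
  linarith

include hρ hirr hu in
/-- a minimal projection reduces the commutant to the scalars -/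
theorem scalar_sa {p : ℋ →L[ℂ] ℋ} (hp : Pj ρ M p) (hmin : ∀ r, Pj ρ M r → p * r = r → r = p)
    {A : ℋ →L[ℂ] ℋ} (hA : Cc (SM ρ M) A) (hAa : adjoint A = A) : ∃ z : ℂ, p * A * p = z • p := by
  have hc0 : (n2 ρ M u₀ p : ℂ) ≠ 0 := by
    have := one_le hρ hirr hu hp
    have h : n2 ρ M u₀ p ≠ 0 := by linarith
    exact_mod_cast h
  have hcp : cf ρ M u₀ p = (n2 ρ M u₀ p : ℂ) := by
    rw [← cf_sq hρ, hp.adj, hp.sq]
  have hE : adjoint (p * A * p) = p * A * p := by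
    rw [adj_mul', adj_mul', hp.adj, hAa, mul_assoc]
  have hEC : Cc (SM ρ M) (p * A * p) := (hp.cc.mul hA).mul hp.cc
  set z := cf ρ M u₀ (p * A * p) / cf ρ M u₀ p with hz
  -- `z` is real
  have havg : adjoint (avg ρ M (p * A * p)) = avg ρ M (p * A * p) := by
    rw [avg, map_sum]
    refine Finset.sum_congr rfl fun q _ => ?_
    rw [adj_mul', adj_mul', hE, hρ, hρ, inv_inv, ← mul_assoc]
  have hcr : (starRingEnd ℂ) (cf ρ M u₀ (p * A * p)) = cf ρ M u₀ (p * A * p) := by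
    rw [cf, inner_conj_symm]
    conv_lhs => rw [← havg]
    rw [adjoint_inner_left]
  have hzr : (starRingEnd ℂ) z = z := by
    rw [hz, map_div₀, hcr, hcp, Complex.conj_ofReal]
  refine ⟨z, ?_⟩
  by_contra hne
  set D := p * A * p - z • p with hD
  have hD0 : D ≠ 0 := sub_ne_zero.2 hne
  have hDa : adjoint D = D := by
    rw [hD, map_sub, hE]
    congr 1
    have : adjoint (z • p) = (starRingEnd ℂ) z • adjoint p := star_smul z p
    rw [this, hzr, hp.adj]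
  have hDs : IsSelfAdjoint D := hDa
  have hzp : Cc (SM ρ M) (z • p) := fun s hs => by
    rw [smul_mul_assoc, hp.cc s hs, mul_smul_comm]
  have hDC : Cc (SM ρ M) D := hEC.sub hzp
  have hcD : cf ρ M u₀ D = 0 := by
    have h1 : D = p * A * p + (-z) • p := by rw [hD, neg_smul]; abel
    rw [h1, cf_add, cf_smul, hz]
    field_simp
    ring_nf
    rw [hcp]
    field_simp
    ring
  have hDp : D * p = D := by
    rw [hD, sub_mul, smul_mul_assoc, hp.sq, mul_assoc, hp.sq]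
  have hpD : p * D = D := by
    have := congrArg adjoint hDp
    rwa [adj_mul', hp.adj, hDa] at this
  have hcomm : ∀ f : ℝ → ℝ, Cc (SM ρ M) (cfc f D) := by
    intro f s hs
    exact (hDs.commute_cfc (show Commute D s from hDC s hs) f)
  -- positive and negative parts
  set f₁ : ℝ → ℝ := fun t => Real.sqrt (max t 0) with hf₁
  set f₂ : ℝ → ℝ := fun t => Real.sqrt (max (-t) 0) with hf₂
  have hf₁c : Continuous f₁ := Real.continuous_sqrt.comp (continuous_id.max continuous_const)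
  have hf₂c : Continuous f₂ := Real.continuous_sqrt.comp (continuous_neg.max continuous_const)
  set B₁ := cfc f₁ D with hB₁
  set B₂ := cfc f₂ D with hB₂
  have hB₁a : adjoint B₁ = B₁ := (cfc_predicate f₁ D : IsSelfAdjoint _)
  have hB₂a : adjoint B₂ = B₂ := (cfc_predicate f₂ D : IsSelfAdjoint _)
  have hid : cfc (fun t : ℝ => t) D = D := cfc_id' ℝ D hDs
  have h11 : B₁ * B₁ = cfc (fun t => f₁ t * f₁ t) D :=
    (cfc_mul f₁ f₁ D hf₁c.continuousOn hf₁c.continuousOn).symm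
  have h22 : B₂ * B₂ = cfc (fun t => f₂ t * f₂ t) D :=
    (cfc_mul f₂ f₂ D hf₂c.continuousOn hf₂c.continuousOn).symm
  have h12 : B₁ * B₂ = 0 := by
    rw [hB₁, hB₂, ← cfc_mul f₁ f₂ D hf₁c.continuousOn hf₂c.continuousOn]
    have h0 : (fun t => f₁ t * f₂ t) = fun _ => (0 : ℝ) := by
      funext t
      rcases le_total t 0 with h | h
      · have : f₁ t = 0 := by rw [hf₁]; simp [max_eq_right h]
        rw [this, zero_mul]
      · have : f₂ t = 0 := by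
          rw [hf₂]
          have h1 : max (-t) 0 = 0 := max_eq_right (by linarith)
          simp [h1]
        rw [this, mul_zero]
    rw [h0]
    exact cfc_const_zero ℝ D
  have h21 : B₂ * B₁ = 0 := by
    have := congrArg adjoint h12
    rwa [adj_mul', hB₁a, hB₂a, map_zero] at this
  have hdec : D = B₁ * B₁ - B₂ * B₂ := by
    rw [h11, h22, ← cfc_sub (fun t => f₁ t * f₁ t) (fun t => f₂ t * f₂ t) D
      (hf₁c.mul hf₁c).continuousOn (hf₂c.mul hf₂c).continuousOn]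
    conv_lhs => rw [← hid]
    refine cfc_congr fun t _ => ?_
    change t = f₁ t * f₁ t - f₂ t * f₂ t
    rw [hf₁, hf₂]
    simp only []
    rw [Real.mul_self_sqrt (le_max_right _ _), Real.mul_self_sqrt (le_max_right _ _)]
    rcases le_total t 0 with h | h
    · rw [max_eq_right h, max_eq_left (by linarith)]; ring
    · rw [max_eq_left h, max_eq_right (by linarith)]; ring
  have hB₁C := hcomm f₁
  have hB₂C := hcomm f₂
  have hn : n2 ρ M u₀ B₁ = n2 ρ M u₀ B₂ := by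
    have h1 : cf ρ M u₀ D = cf ρ M u₀ (adjoint B₁ * B₁) + (-1) * cf ρ M u₀ (adjoint B₂ * B₂) := by
      rw [← cf_smul, ← cf_add, hB₁a, hB₂a]
      congr 1
      conv_lhs => rw [hdec]
      rw [neg_one_smul]; abel
    rw [hcD, cf_sq hρ, cf_sq hρ] at h1
    have h2 : (n2 ρ M u₀ B₁ : ℂ) = (n2 ρ M u₀ B₂ : ℂ) := by linear_combination (-1 : ℂ) * h1
    exact_mod_cast h2
  have hz0 : ∀ B : ℋ →L[ℂ] ℋ, Cc (SM ρ M) B → n2 ρ M u₀ B = 0 → B = 0 := by
    intro B hB h0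
    ext1 v
    have h1 := sq_le hρ hirr hu hB v
    rw [h0, zero_mul] at h1
    have h2 : ‖B v‖ = 0 := by nlinarith [norm_nonneg (B v), sq_nonneg ‖B v‖]
    exact norm_eq_zero.1 h2
  have hB₁0 : B₁ ≠ 0 := by
    intro h
    have h1 : n2 ρ M u₀ B₁ = 0 := by
      rw [h, n2]
      exact Finset.sum_eq_zero fun q _ => by simp
    have h2 := hz0 B₂ hB₂C (hn ▸ h1)
    exact hD0 (by rw [hdec, h, h2, mul_zero, sub_zero])
  have hB₂0 : B₂ ≠ 0 := by
    intro h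
    have h1 : n2 ρ M u₀ B₂ = 0 := by
      rw [h, n2]
      exact Finset.sum_eq_zero fun q _ => by simp
    have h2 := hz0 B₁ hB₁C (hn.symm ▸ h1)
    exact hB₁0 h2
  have hx : B₁ * D = B₁ * B₁ * B₁ := by
    conv_lhs => rw [hdec]
    rw [mul_sub, ← mul_assoc, ← mul_assoc B₁ B₂, h12, zero_mul, sub_zero]
  have hx0 : B₁ * B₁ * B₁ ≠ 0 := by
    intro h
    have h1 : adjoint B₁ * B₁ ≠ 0 := adj_mul_self_ne hB₁0
    rw [hB₁a] at h1
    have h2 := adj_mul_self_ne h1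
    rw [adj_mul', hB₁a, ← mul_assoc, h, zero_mul] at h2
    exact h2 rfl
  obtain ⟨a, q, haC, hqC, haa, hqa, hqq, hq0, -, hqf⟩ := exists_pi (SM_adj hρ)
    ((hB₁C.mul hB₁C).mul hB₁C) hx0
  have hqp : q * p = q := hqf p hp.adj (by rw [← hx, mul_assoc, hDp])
  have hpq : p * q = q := by
    have := congrArg adjoint hqp
    rwa [adj_mul', hp.adj, hqa] at this
  have hqe : q = p := hmin q ⟨hqC, hqa, hqq, hq0⟩ hpq
  -- the kernel of `B₂`
  set F : Submodule ℂ ℋ := LinearMap.ker (B₂ : ℋ →ₗ[ℂ] ℋ) with hF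
  have hFm : ∀ v, v ∈ F ↔ B₂ v = 0 := fun v => by rw [hF, LinearMap.mem_ker]; rfl
  haveI : CompleteSpace F := (ContinuousLinearMap.isClosed_ker B₂).completeSpace_coe
  have hfB : F.starProjection * B₁ = B₁ := by
    ext1 v
    refine Submodule.starProjection_eq_self_iff.2 ((hFm _).2 ?_)
    exact DFunLike.congr_fun h21 v
  have hBf : B₁ * F.starProjection = B₁ := by
    have := congrArg adjoint hfB
    rwa [adj_mul', hB₁a, adj_starProjection] at this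
  have hqf2 : q * F.starProjection = q := hqf _ (adj_starProjection F) (by rw [mul_assoc, hBf])
  have hfp : F.starProjection * p = p := by
    rw [hqe] at hqf2
    have := congrArg adjoint hqf2
    rwa [adj_mul', hp.adj, adj_starProjection] at this
  have hB2p : B₂ * p = 0 := by
    ext1 v
    have h1 : F.starProjection (p v) = p v := DFunLike.congr_fun hfp v
    have h2 : p v ∈ F := Submodule.starProjection_eq_self_iff.1 h1
    exact (hFm _).1 h2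
  have hB2D : B₂ * D = 0 := by rw [← hpD, ← mul_assoc, hB2p, zero_mul]
  have hB23 : B₂ * B₂ * B₂ = 0 := by
    have h1 : B₂ * D = -(B₂ * B₂ * B₂) := by
      conv_lhs => rw [hdec]
      rw [mul_sub, ← mul_assoc, h21, zero_mul, zero_sub, mul_assoc]
    rw [h1] at hB2D
    exact neg_eq_zero.1 hB2D
  have h1 : adjoint B₂ * B₂ ≠ 0 := adj_mul_self_ne hB₂0
  rw [hB₂a] at h1
  have h2 := adj_mul_self_ne h1
  rw [adj_mul', hB₂a, ← mul_assoc, hB23, zero_mul] at h2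
  exact h2 rfl

include hρ hirr hu in
theorem scalar_all {p : ℋ →L[ℂ] ℋ} (hp : Pj ρ M p) (hmin : ∀ r, Pj ρ M r → p * r = r → r = p)
    {A : ℋ →L[ℂ] ℋ} (hA : Cc (SM ρ M) A) : ∃ z : ℂ, p * A * p = z • p := by
  have hAs := hA.adj (SM_adj hρ)
  obtain ⟨z₁, h1⟩ := scalar_sa hρ hirr hu hp hmin (hA.add hAs) (by
    rw [map_add, adj_adj', add_comm])
  have hC2 : Cc (SM ρ M) (Complex.I • (A - adjoint A)) := fun s hs => by
    rw [smul_mul_assoc, (hA.sub hAs) s hs, mul_smul_comm]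
  obtain ⟨z₂, h2⟩ := scalar_sa hρ hirr hu hp hmin hC2 (by
    have : adjoint (Complex.I • (A - adjoint A)) =
      (starRingEnd ℂ) Complex.I • adjoint (A - adjoint A) := star_smul Complex.I _
    rw [this, map_sub, adj_adj', Complex.conj_I, neg_smul, ← smul_neg, neg_sub])
  refine ⟨(1 / 2) * z₁ - (Complex.I / 2) * z₂, ?_⟩
  have e : A = (1 / 2 : ℂ) • (A + adjoint A) + (-(Complex.I / 2)) • (Complex.I • (A - adjoint A)) := by
    rw [smul_smul]
    have : -(Complex.I / 2) * Complex.I = 1 / 2 := by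
      have := Complex.I_mul_I
      linear_combination (-1 / 2 : ℂ) * this
    rw [this, ← smul_add, add_add_sub_cancel, ← two_smul ℂ A, smul_smul]
    norm_num
  conv_lhs => rw [e]
  rw [mul_add, add_mul, mul_smul_comm, smul_mul_assoc, mul_smul_comm, smul_mul_assoc, h1, h2,
    smul_smul, smul_smul, ← add_smul]
  congr 1
  ring

include hρ hirr in
/-- **A minimal projection of the commutant of a subgroup of finite index.** -/
theorem exists_cut [Nontrivial ℋ] : ∃ p : ℋ →L[ℂ] ℋ, Pj ρ M p ∧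
    ∀ A, Cc (SM ρ M) A → ∃ z : ℂ, p * A * p = z • p := by
  obtain ⟨v, hv⟩ := exists_ne (0 : ℋ)
  have hu : ‖((‖v‖ : ℂ)⁻¹ • v)‖ = 1 := by
    rw [norm_smul, norm_inv, Complex.norm_real, norm_norm]
    exact inv_mul_cancel₀ (norm_ne_zero_iff.2 hv)
  obtain ⟨p, hp, hmin⟩ := exists_minP (M := M) hρ hirr hu
  exact ⟨p, hp, fun A hA => scalar_all hρ hirr hu hp hmin hA⟩

end cut

end Vale.Agent.P092.H678.OV
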