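import Vale.Agent.P092.H678.O.Min
import Vale.Agent.P092.H58.Frame

/-!
P092 (helper678), [OV]: the commutant of the right translations of an infinite group on `ℓ²(I × N)`
has no minimal projection, hence projections of every trace number.
-/

set_option linter.all false

open scoped InnerProductSpace
open ContinuousLinearMap Filter Topology

namespace Vale.Agent.P092.H678.OV

open Vale.Agent.P092.H160 Vale.Agent.P092.H103
open Vale.Agent.P092.H962.Eq

section avg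

variable {N H : Type} [Group N] [NormedAddCommGroup H] [InnerProductSpace ℂ H] [CompleteSpace H]

/-- the vectors orthogonal at infinity to the orbit of `w` -/
def zin (U : N →* (H →L[ℂ] H)) (w : H) : Submodule ℂ H where
  carrier := {v | Tendsto (fun y => ⟪v, U y w⟫_ℂ) cofinite (𝓝 0)}
  zero_mem' := by
    change Tendsto (fun y => ⟪(0 : H), U y w⟫_ℂ) cofinite (𝓝 0)
    simp only [inner_zero_left]
    exact tendsto_const_nhds
  add_mem' := by
    intro a b ha hb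
    change Tendsto (fun y => ⟪a + b, U y w⟫_ℂ) cofinite (𝓝 0)
    have h := Tendsto.add (show Tendsto (fun y => ⟪a, U y w⟫_ℂ) cofinite (𝓝 0) from ha)
      (show Tendsto (fun y => ⟪b, U y w⟫_ℂ) cofinite (𝓝 0) from hb)
    rw [add_zero] at h
    simpa only [inner_add_left] using h
  smul_mem' := by
    intro c a ha
    change Tendsto (fun y => ⟪c • a, U y w⟫_ℂ) cofinite (𝓝 0)
    have h := (show Tendsto (fun y => ⟪a, U y w⟫_ℂ) cofinite (𝓝 0) from ha).const_mul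
      ((starRingEnd ℂ) c)
    rw [mul_zero] at h
    simpa only [inner_smul_left] using h

theorem rep_norm {U : N →* (H →L[ℂ] H)} (hU : ∀ g, adjoint (U g) = U g⁻¹) (g : N) (v : H) :
    ‖U g v‖ = ‖v‖ := by
  have h1 : ⟪U g v, U g v⟫_ℂ = ⟪v, v⟫_ℂ := by
    rw [← adjoint_inner_right, hU]
    have : U g⁻¹ (U g v) = v := by
      change (U g⁻¹ * U g) v = v
      rw [← map_mul, inv_mul_cancel, map_one]; rfl
    rw [this]
  rw [inner_self_eq_norm_sq_to_K, inner_self_eq_norm_sq_to_K] at h1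
  have h2 : ‖U g v‖ ^ 2 = ‖v‖ ^ 2 := by exact_mod_cast h1
  exact (pow_left_inj₀ (norm_nonneg _) (norm_nonneg _) two_ne_zero).mp h2

theorem zin_closed {U : N →* (H →L[ℂ] H)} (hU : ∀ g, adjoint (U g) = U g⁻¹) (w : H) :
    IsClosed (zin U w : Set H) := by
  refine isClosed_of_closure_subset fun v hv => ?_
  change Tendsto (fun y => ⟪v, U y w⟫_ℂ) cofinite (𝓝 0)
  rw [Metric.tendsto_nhds]
  intro ε hε
  obtain ⟨v', hv', hd⟩ := Metric.mem_closure_iff.1 hv (ε / (2 * (‖w‖ + 1))) (by positivity)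
  have h1 := (Metric.tendsto_nhds.1
    (show Tendsto (fun y => ⟪v', U y w⟫_ℂ) cofinite (𝓝 0) from hv')) (ε / 2) (by positivity)
  filter_upwards [h1] with y hy
  rw [dist_zero_right] at hy ⊢
  have e : ⟪v, U y w⟫_ℂ = ⟪v - v', U y w⟫_ℂ + ⟪v', U y w⟫_ℂ := by
    rw [inner_sub_left]; ring
  rw [e]
  have h2 : ‖⟪v - v', U y w⟫_ℂ‖ ≤ ε / 2 := by
    refine (norm_inner_le_norm _ _).trans ?_
    rw [rep_norm hU, ← dist_eq_norm]
    calc dist v v' * ‖w‖ ≤ (ε / (2 * (‖w‖ + 1))) * (‖w‖ + 1) := by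
          refine mul_le_mul hd.le (by linarith) (norm_nonneg _) (by positivity)
      _ = ε / 2 := by field_simp
  calc _ ≤ ‖⟪v - v', U y w⟫_ℂ‖ + ‖⟪v', U y w⟫_ℂ‖ := norm_add_le _ _
    _ < ε := by linarith

/-- a fixed vector is orthogonal to a vector with vanishing coefficients -/
theorem fixed_orth [Infinite N] {U : N →* (H →L[ℂ] H)} (hU : ∀ g, adjoint (U g) = U g⁻¹) {w δ : H}
    (hf : Tendsto (fun y => ⟪w, U y w⟫_ℂ) cofinite (𝓝 0)) (hδ : ∀ y, U y δ = δ) :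
    ⟪δ, w⟫_ℂ = 0 := by
  set K : Submodule ℂ H := (Submodule.span ℂ (Set.range fun x => U x w)).topologicalClosure with hK
  haveI : CompleteSpace K := (Submodule.isClosed_topologicalClosure _).completeSpace_coe
  have h1 : K ≤ zin U w := by
    refine Submodule.topologicalClosure_minimal _ (Submodule.span_le.2 ?_) (zin_closed hU w)
    rintro _ ⟨x, rfl⟩
    have h2 : Tendsto (fun y => ⟪w, U (x⁻¹ * y) w⟫_ℂ) cofinite (𝓝 0) :=
      hf.comp (mul_right_injective x⁻¹).tendsto_cofinite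
    have h3 : ∀ y, ⟪w, U (x⁻¹ * y) w⟫_ℂ = ⟪U x w, U y w⟫_ℂ := by
      intro y
      have h4 : U (x⁻¹ * y) w = U x⁻¹ (U y w) := by rw [map_mul]; rfl
      rw [h4, ← hU x, adjoint_inner_right]
    have h5 : Tendsto (fun y => ⟪U x w, U y w⟫_ℂ) cofinite (𝓝 0) := by
      simpa only [h3] using h2
    exact h5
  have h2 : K.starProjection δ ∈ zin U w := h1 (Submodule.starProjection_apply_mem K δ)
  have h3 : ∀ y, ⟪K.starProjection δ, U y w⟫_ℂ = ⟪δ, w⟫_ℂ := by
    intro y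
    have h4 : U y w ∈ K := Submodule.le_topologicalClosure _ (Submodule.subset_span ⟨y, rfl⟩)
    have h5 : ⟪K.starProjection δ, U y w⟫_ℂ = ⟪δ, U y w⟫_ℂ := by
      have h6 : K.starProjection (U y w) = U y w := Submodule.starProjection_eq_self_iff.2 h4
      conv_rhs => rw [← h6]
      rw [← adj_starProjection K, adjoint_inner_left, adj_starProjection]
    rw [h5, ← adjoint_inner_left, hU, hδ]
  have h4 : Tendsto (fun _ : N => ⟪δ, w⟫_ℂ) cofinite (𝓝 0) := by
    have : Tendsto (fun y => ⟪K.starProjection δ, U y w⟫_ℂ) cofinite (𝓝 0) := h2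
    simpa only [h3] using this
  exact tendsto_nhds_unique tendsto_const_nhds h4

end avg

section mat

variable {N κ : Type} [Group N] [Fintype κ]

/-- the operators of a free action -/
def SR {K Z J : Type} [Group K] (f : FS K Z J) : Set (Ell2 Z →L[ℂ] Ell2 Z) := Set.range f.R

theorem SR_adj {K Z J : Type} [Group K] (f : FS K Z J) : ∀ s ∈ SR f, adjoint s ∈ SR f := by
  rintro _ ⟨x, rfl⟩
  exact ⟨x⁻¹, (f.R_adj x).symm⟩

theorem SR_eqv {K Z J : Type} [Group K] {f : FS K Z J} {x : Ell2 Z →L[ℂ] Ell2 Z}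
    (h : Cc (SR f) x) : Eqv f.R f.R x := fun g v =>
  DFunLike.congr_fun (h _ ⟨g, rfl⟩) v

theorem SR_faithful {K Z J : Type} [Group K] (f : FS K Z J) (x : Ell2 Z →L[ℂ] Ell2 Z)
    (h : Cc (SR f) x) (h0 : ∀ j, x (dl (f.base j)) = 0) : x = 0 :=
  f.ext_base f (SR_eqv h) (fun g v => by
    rw [ContinuousLinearMap.zero_apply, ContinuousLinearMap.zero_apply, map_zero]) fun j => by
    rw [h0, ContinuousLinearMap.zero_apply]

theorem SR_trace {K Z J : Type} [Group K] [Fintype J] (f : FS K Z J) (x y : Ell2 Z →L[ℂ] Ell2 Z)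
    (hx : Cc (SR f) x) (hy : Cc (SR f) y) :
    ∑ j, ⟪(dl (f.base j) : Ell2 Z), (x * y) (dl (f.base j))⟫_ℂ =
      ∑ j, ⟪(dl (f.base j) : Ell2 Z), (y * x) (dl (f.base j))⟫_ℂ :=
  f.tr_comm f (SR_eqv hy) (SR_eqv hx)

/-- the conjugation representation -/
noncomputable def Ad (κ N : Type) [Group N] : N →* (Ell2 (κ × N) →L[ℂ] Ell2 (κ × N)) where
  toFun y := tens 1 (lam y * rho y)
  map_one' := by rw [lam_one, rho_one, mul_one, tens_one]
  map_mul' x y := by
    rw [lam_mul, rho_mul, ← tens_mul, one_mul]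
    congr 1
    rw [mul_assoc, ← mul_assoc (lam y), ← rho_lam]
    simp only [mul_assoc]

theorem Ad_ap (y : N) : Ad κ N y = tens 1 (lam y * rho y) := rfl

theorem Ad_adj (y : N) : adjoint (Ad κ N y) = Ad κ N y⁻¹ := by
  rw [Ad_ap, Ad_ap, adjoint_tens, adjoint_one, adj_mul', adjoint_lam, adjoint_rho, rho_lam]

theorem Ad_dl (k : κ) (y : N) : Ad κ N y (dl (k, 1)) = dl (k, 1) := by
  rw [Ad_ap, tens_dl, one_apply_eq_self]
  change tv (dl k) (lam y (rho y (dl 1))) = _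
  rw [rho_dl, lam_dl, ← dl_prod]
  congr 2
  group

open Classical in
/-- **No minimal projections.** -/
theorem no_min [Infinite N] (p : Ell2 (κ × N) →L[ℂ] Ell2 (κ × N)) (hp : PjS (SR (FS.mat κ N)) p) :
    ∃ r, PjS (SR (FS.mat κ N)) r ∧ p * r = r ∧ r ≠ p := by
  by_contra hcon
  push Not at hcon
  have hsc : ∀ A, Cc (SR (FS.mat κ N)) A → ∃ z : ℂ, p * A * p = z • p := fun A hA =>
    scalar_genAll (SR_adj _) (ξ := fun k => (dl ((FS.mat κ N).base k) : Ell2 (κ × N)))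
      (fun x hx h => SR_faithful _ x hx h) hp (fun r hr hpr => hcon r hr hpr) hA
  obtain ⟨k, hk⟩ : ∃ k, p (dl ((FS.mat κ N).base k)) ≠ 0 := by
    by_contra h
    push Not at h
    exact hp.ne (SR_faithful _ p hp.cc h)
  rw [FS.mat_base] at hk
  set δ : Ell2 (κ × N) := dl (k, 1) with hδ
  set ω := p δ with hω
  have hpω : p ω = ω := DFunLike.congr_fun hp.sq δ
  set E : N → (Ell2 (κ × N) →L[ℂ] Ell2 (κ × N)) := fun y => tens (H58.eu k k) (lam y) with hE
  have hEC : ∀ y, Cc (SR (FS.mat κ N)) (E y) := by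
    rintro y _ ⟨x, rfl⟩
    rw [FS.mat_R, hE]
    change tens (H58.eu k k) (lam y) * tens 1 (rho x) = tens 1 (rho x) * tens (H58.eu k k) (lam y)
    rw [← tens_mul, ← tens_mul, mul_one, one_mul, rho_lam]
  choose c hc using fun y => hsc _ (hEC y)
  have hωn : 0 < ‖ω‖ := norm_pos_iff.2 hk
  -- `E y = E 1 * (1 ⊗ lam y)`
  have hE1 : ∀ y, E y = tens (H58.eu k k) 1 * tens 1 (lam y) := by
    intro y
    rw [← tens_mul, mul_one, one_mul]
  have hEn : ∀ y, ‖E y ω‖ ≤ ‖tens (H58.eu k k) (1 : Ell2 N →L[ℂ] Ell2 N)‖ * ‖ω‖ := by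
    intro y
    have h1 : tens (1 : Ell2 κ →L[ℂ] Ell2 κ) (lam y) =
        rei (Equiv.prodCongr (Equiv.refl κ) (Equiv.mulLeft y)) := by
      have h : (1 : Ell2 κ →L[ℂ] Ell2 κ) = rei (Equiv.refl κ) := rfl
      rw [h, lam, tens_rei]
    have h2 : E y ω = tens (H58.eu k k) (1 : Ell2 N →L[ℂ] Ell2 N)
        (rei (Equiv.prodCongr (Equiv.refl κ) (Equiv.mulLeft y)) ω) := by
      rw [hE1, h1]; rfl
    rw [h2]
    refine (ContinuousLinearMap.le_opNorm _ _).trans (le_of_eq ?_)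
    rw [norm_rei]
  set C := ‖tens (H58.eu k k) (1 : Ell2 N →L[ℂ] Ell2 N)‖ with hC
  have hcn : ∀ y, ‖c y‖ ≤ C := by
    intro y
    have h1 : c y • ω = p (E y ω) := by
      have h2 := DFunLike.congr_fun (hc y) δ
      change p (E y (p δ)) = c y • p δ at h2
      exact h2.symm
    have h3 : ‖c y‖ * ‖ω‖ ≤ C * ‖ω‖ := by
      rw [← norm_smul, h1]
      exact ((proj_norm_le hp.adj hp.sq _).2).trans (hEn y)
    exact le_of_mul_le_mul_right h3 hωn
  set w := tens (H58.eu k k) (1 : Ell2 N →L[ℂ] Ell2 N) ω with hw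
  have hcoef : ∀ y, ⟪w, Ad κ N y w⟫_ℂ = c y * ω (k, y) := by
    intro y
    have h1 : adjoint (tens (H58.eu k k) (1 : Ell2 N →L[ℂ] Ell2 N)) *
        (Ad κ N y * tens (H58.eu k k) 1) = E y * (FS.mat κ N).R y := by
      rw [adjoint_tens, H58.adj_eu, adjoint_one, Ad_ap, FS.mat_R, hE]
      change _ = tens (H58.eu k k) (lam y) * tens 1 (rho y)
      rw [← tens_mul, ← tens_mul, ← tens_mul, one_mul, mul_one, one_mul, mul_one]
      congr 1
      apply op_ext
      intro j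
      change H58.eu k k (H58.eu k k (dl j)) = H58.eu k k (dl j)
      rw [H58.eu_apply, H58.eu_apply]
      rw [lp.coeFn_smul, Pi.smul_apply, dl_self, smul_eq_mul, mul_one]
    have h2 : ⟪w, Ad κ N y w⟫_ℂ = ⟪ω, (E y * (FS.mat κ N).R y) ω⟫_ℂ := by
      rw [← h1, hw]
      change _ = ⟪ω, adjoint (tens (H58.eu k k) 1) (Ad κ N y (tens (H58.eu k k) 1 ω))⟫_ℂ
      rw [adjoint_inner_right]
    rw [h2, hEC y _ ⟨y, rfl⟩]
    change ⟪ω, (FS.mat κ N).R y (E y ω)⟫_ℂ = _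
    rw [FS.R_right]
    have h3 : (FS.mat κ N).R y⁻¹ ω = p (dl (k, y)) := by
      rw [hω, ← SR_eqv hp.cc, hδ, FS.R_dl, FS.mat_act, inv_inv, one_mul]
    rw [h3, ← hpω]
    have h4 : ⟪p (dl (k, y) : Ell2 (κ × N)), E y (p ω)⟫_ℂ = ⟪(dl (k, y) : Ell2 (κ × N)),
        (p * E y * p) ω⟫_ℂ := by
      conv_lhs => rw [← hp.adj]
      rw [adjoint_inner_left, hp.adj]
      rfl
    rw [h4, hc y]
    change ⟪(dl (k, y) : Ell2 (κ × N)), c y • p ω⟫_ℂ = _
    rw [inner_smul_right, inner_dl]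
  have hlim : Tendsto (fun y => ⟪w, Ad κ N y w⟫_ℂ) cofinite (𝓝 0) := by
    have h1 : Tendsto (fun y : N => ω (k, y)) cofinite (𝓝 0) := by
      have h2 : Summable fun y : N => ‖ω (k, y)‖ ^ 2 :=
        (summable_sq ω).comp_injective (Prod.mk_right_injective k)
      have h3 := h2.tendsto_cofinite_zero
      rw [tendsto_zero_iff_norm_tendsto_zero]
      have h4 := h3.sqrt
      rw [Real.sqrt_zero] at h4
      refine h4.congr fun y => ?_
      exact Real.sqrt_sq (norm_nonneg _)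
    have h2 := h1.norm.const_mul C
    rw [norm_zero, mul_zero] at h2
    rw [tendsto_zero_iff_norm_tendsto_zero]
    refine squeeze_zero (fun _ => norm_nonneg _) (fun y => ?_) h2
    rw [hcoef, norm_mul]
    exact mul_le_mul_of_nonneg_right (hcn y) (norm_nonneg _)
  have h0 : ⟪δ, w⟫_ℂ = 0 := fixed_orth (fun g => Ad_adj g) hlim fun y => Ad_dl k y
  have h1 : ⟪δ, w⟫_ℂ = ⟪δ, ω⟫_ℂ := by
    rw [hw, ← adjoint_inner_left, adjoint_tens, H58.adj_eu, adjoint_one, hδ, tens_dl,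
      H58.eu_apply, dl_self, one_smul, one_apply_eq_self, ← dl_prod]
  have h2 : ⟪δ, ω⟫_ℂ = ⟪ω, ω⟫_ℂ := by
    have h3 : ⟪ω, ω⟫_ℂ = ⟪δ, p ω⟫_ℂ := by
      conv_lhs => rw [hω]
      rw [← adjoint_inner_right, hp.adj]
    rw [h3, hpω]
  rw [h1, h2] at h0
  exact hk (inner_self_eq_zero.1 h0)

/-- **Projections of every trace number on `ℓ²(κ × N)`.** -/
theorem exists_trN [Infinite N] {d : ℝ} (h0 : 0 ≤ d) (h1 : d ≤ Fintype.card κ) :
    ∃ P : Ell2 (κ × N) →L[ℂ] Ell2 (κ × N), Cc (SR (FS.mat κ N)) P ∧ adjoint P = P ∧ P * P = P ∧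
      ∑ k, ‖P (dl (k, 1))‖ ^ 2 = d := by
  have h2 : d ≤ ∑ k, ‖(dl ((FS.mat κ N).base k) : Ell2 (κ × N))‖ ^ 2 := by
    simp only [norm_dl]
    simpa using h1
  exact exists_tr (SR_adj _) (ξ := fun k => (dl ((FS.mat κ N).base k) : Ell2 (κ × N)))
    (fun x hx h => SR_faithful _ x hx h) no_min h0 h2

end mat

end Vale.Agent.P092.H678.OV
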