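import Vale.Agent.P092.H678.O.Tra
import Vale.Agent.P092.H264.AmpC
import Vale.Agent.P092.H421.Hs6
import Vale.Agent.P092.H962.C.Irr
import Vale.Agent.P092.H962.MT5
import Vale.Agent.P092.SR.St

/-!
P092 (helper678), [OV]: the core statement for abstract systems of `E` gives the conclusion of Q1
for every ICC group with a subgroup of finite index isomorphic to a lattice of `E`.
-/

set_option linter.all false

open scoped InnerProductSpace ENNReal
open ContinuousLinearMap Filter Topology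

namespace Vale.Agent.P092.H678.OV

open Vale.Agent.P092.H160 Vale.Agent.P092.H103 Vale.Agent.P092.H962
open Vale.Agent.P092.SR (Tri)
open Vale.Agent.P092.H421.Hs (Frq trq Mixq Pf ana)

/-! ### The model -/

section model

variable {Γ Λ I : Type} [Group Γ] [Infinite Γ] [Group Λ] [Countable Λ] [Fintype I]
  {α : Γ → (Ell2 (I × Λ) →L[ℂ] Ell2 (I × Λ))} (hα : AF α)

/-- **The amplified model is a system.** -/
theorem sys0_HH (hΓ : Icc Γ)
    (hΛ : ∀ s : Λ, s ≠ 1 → Set.Infinite {y : Λ | ∃ h, y = h * s * h⁻¹}) :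
    Sys0 (V3 hα hα hα) (A3R hα hα hα) (B3R hα hα hα) := by
  obtain ⟨m, m', ξ, h⟩ := H962.exists_tri hα hα hα hΛ
  obtain ⟨n, n', ζ, h'⟩ := H962.exists_tri' hα hα hα hΛ
  obtain ⟨m₂, e₂, he₂, hm₂⟩ := H421.Hs.exists_frq₂ hα hα hα hΛ
  obtain ⟨m₁, e₁, he₁, hm₁⟩ := H421.Hs.exists_frq₁ hα hα hα hΛ
  refine ⟨?_, ⟨_, inferInstance, ξ, h⟩, ⟨_, inferInstance, ζ, h'⟩, ?_, ?_, ⟨_, e₁, he₁, hm₁⟩,
    ⟨_, e₂, he₂, hm₂⟩⟩
  · haveI h1 : TopologicalSpace.SeparableSpace (Ell2 (I × ((I × Λ) × (I × Λ)))) :=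
      separable_of_basis (HilbertBasis.ofRepr (LinearIsometryEquiv.refl ℂ
        (Ell2 (I × ((I × Λ) × (I × Λ))))))
    haveI h2 : SecondCountableTopology (Ell2 (I × ((I × Λ) × (I × Λ)))) :=
      UniformSpace.secondCountable_of_separable _
    haveI h3 : SecondCountableTopology (HH (PT α α α)) :=
      inferInstanceAs (SecondCountableTopology (↥(_ : Submodule ℂ _)))
    haveI h4 : TopologicalSpace.SeparableSpace (HH (PT α α α)) := inferInstance
    exact exists_cb (HH (PT α α α))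
  · exact ⟨_, inferInstance, _, (swap_AU (β := α) (γ := α) hα).tri (swU_A hα hα hα)
      (swU_V hα hα hα) (swU_B hα hα hα) (fun c => rfl) h'⟩
  · intro A h0 h1 h2
    exact irr_HH hΓ hΛ hα hα hα h0 h1 h2

end model

/-! ### Isomorphisms of groups -/

section equiv

variable {Γ Γ' ℋ : Type} [Group Γ] [Group Γ'] [NormedAddCommGroup ℋ] [InnerProductSpace ℂ ℋ]
  [CompleteSpace ℋ] {V R₁ R₂ R : Γ →* (ℋ →L[ℂ] ℋ)} (e : Γ' ≃* Γ)

/-- the representation read on `Γ'` -/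
noncomputable abbrev tp (V : Γ →* (ℋ →L[ℂ] ℋ)) : Γ' →* (ℋ →L[ℂ] ℋ) := V.comp e.toMonoidHom

theorem tri_tp {κ : Type} [Fintype κ] {ξ : κ → ℋ} (h : Tri V R₁ R₂ ξ) :
    Tri (tp e V) (tp e R₁) (tp e R₂) ξ where
  adjV g := by
    change adjoint (V (e g)) = V (e g⁻¹)
    rw [h.adjV, map_inv e]
  adj₁ g := by
    change adjoint (R₁ (e g)) = R₁ (e g⁻¹)
    rw [h.adj₁, map_inv e]
  adj₂ g := by
    change adjoint (R₂ (e g)) = R₂ (e g⁻¹)
    rw [h.adj₂, map_inv e]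
  comm₁ g k := h.comm₁ _ _
  comm₂ g k := h.comm₂ _ _
  comm₁₂ g k := h.comm₁₂ _ _
  ne := h.ne
  frame η := by
    have h1 := (Equiv.prodCongr (Equiv.refl κ) (Equiv.prodCongr e.toEquiv e.toEquiv)).hasSum_iff.2
      (h.frame η)
    exact h1

theorem htri_tp (h : HTri V R₁ R₂) : HTri (tp e V) (tp e R₁) (tp e R₂) := by
  obtain ⟨κ, _, ξ, h1, h2⟩ := h
  exact ⟨κ, inferInstance, ξ, tri_tp e h1, fun γ hγ γ' i j => h2 (e γ) (fun h => hγ (by
    rwa [map_eq_one_iff e e.injective] at h)) (e γ') i j⟩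

theorem gtri_tp (h : GTri V R₁ R₂) : GTri (tp e V) (tp e R₁) (tp e R₂) := by
  obtain ⟨κ, _, ξ, h1⟩ := h
  exact ⟨κ, inferInstance, ξ, tri_tp e h1⟩

theorem all_tp {P : Γ → Prop} (h : ∀ g' : Γ', P (e g')) (g : Γ) : P g := by
  have := h (e.symm g)
  rwa [MulEquiv.apply_symm_apply] at this

theorem hsq_tp (h : Hsq V R) : Hsq (tp e V) (tp e R) := by
  intro Q f hf A hA hB ht
  refine h Q f ?_ A (all_tp e (P := fun g => A * V g = V g * A) hA)
    (all_tp e (P := fun g => A * R g = R g * A) hB) ht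
  intro η
  rw [← hf η]
  exact ((Equiv.prodCongr (Equiv.refl Q) e.toEquiv).tsum_eq
    (fun p : Q × Γ => ‖⟪R p.2 (f p.1), η⟫_ℂ‖ₑ ^ 2)).symm

theorem sys_tp (h : Sys V R₁ R₂) : Sys (tp e V) (tp e R₁) (tp e R₂) :=
  ⟨h.basis, htri_tp e h.t₁, htri_tp e h.t₂, gtri_tp e h.g₁, gtri_tp e h.g₂,
    fun A h0 h1 h2 => h.irr A (all_tp e (P := fun g => A * V g = V g * A) h0)
      (all_tp e (P := fun g => A * R₁ g = R₁ g * A) h1)
      (all_tp e (P := fun g => A * R₂ g = R₂ g * A) h2), hsq_tp e h.hs₁, hsq_tp e h.hs₂⟩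

theorem over_tp (h : OverV (tp e V) (tp e R₁) (tp e R₂)) : OverV V R₁ R₂ := by
  obtain ⟨r, ζ, κ, hκ, h⟩ := h
  refine ⟨r, ζ, κ, hκ, fun g => ?_⟩
  obtain ⟨i, j, a, b, hab⟩ := h (e.symm g)
  refine ⟨i, j, e a, e b, ?_⟩
  have h1 : tp e V (e.symm g) = V g := by
    change V (e (e.symm g)) = V g
    rw [MulEquiv.apply_symm_apply]
  rw [h1] at hab
  exact hab

end equiv

/-- the core statement of `E` for abstract groups -/
theorem over_of_stmt {E : Type} [Group E] [TopologicalSpace E] (hE : OverStmt E) {Γ : Type}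
    [Group Γ] (hicc : Icc Γ) (i : Γ →* E) (hi : Function.Injective i)
    (hl : H515.St.IsLattice i.range) {ℋ : Type} [NormedAddCommGroup ℋ] [InnerProductSpace ℂ ℋ]
    [CompleteSpace ℋ] {V R₁ R₂ : Γ →* (ℋ →L[ℂ] ℋ)} (h : Sys V R₁ R₂) : OverV V R₁ R₂ := by
  have e : i.range ≃* Γ := (MonoidHom.ofInjective hi).symm
  have h1 : Icc i.range := by
    intro g hg hfin
    refine hicc (e g) (fun h => hg ((map_eq_one_iff e e.injective).1 h)) ?_
    refine (hfin.image e).subset ?_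
    rintro _ ⟨k, rfl⟩
    refine ⟨e.symm k * g * (e.symm k)⁻¹, ⟨e.symm k, rfl⟩, ?_⟩
    rw [map_mul, map_mul, map_inv, MulEquiv.apply_symm_apply]
  exact over_tp e (hE i.range hl h1 ℋ _ _ _ (sys_tp e h))

/-- **[OV]: every ICC group with a subgroup of finite index isomorphic to a lattice of `E`.** -/
theorem superAll_fi {E : Type} [Group E] [TopologicalSpace E] (hE : OverStmt E) {Γ : Type}
    [Group Γ] [Infinite Γ] (hicc : SR.St.ICC Γ) (Γ₀ : Subgroup Γ) [Γ₀.FiniteIndex] (i : Γ₀ →* E)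
    (hi : Function.Injective i) (hl : H515.St.IsLattice i.range) : SR.St.SuperAll Γ := by
  intro Λ _ _ hΛ n p hpj θ
  have hα : AF (H103.alf θ) := H103.af_of hicc hpj θ
  have hs := sys0_HH hα hicc hΛ
  obtain ⟨κ, _, ξ, hT⟩ := hs.g₀
  haveI : Nontrivial (HH (PT (H103.alf θ) (H103.alf θ) (H103.alf θ))) := by
    obtain ⟨k, hk⟩ := hT.ne
    exact ⟨⟨ξ k, 0, hk⟩⟩
  obtain ⟨L, _, _, _, W, hV, h₁, h₂, hS⟩ := exists_sys hicc hs Γ₀
  have h1 := over_of_stmt hE (icc_fi hicc Γ₀) i hi hl hS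
  exact H264.Amp.canonM_of_over hicc hΛ hpj θ rfl hα (over_up Γ₀ hT.adjV h1)

end Vale.Agent.P092.H678.OV
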