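import Vale.Agent.P092.H678.O.Dif
import Vale.Agent.P092.H458.T.Wq

/-!
P092 (helper678), [OV]: the commutant of the right translations by `N × N` on
`ℓ²(N × (κ × N))` is a factor (`N` ICC).
-/

set_option linter.all false

open scoped InnerProductSpace
open ContinuousLinearMap Filter Topology

namespace Vale.Agent.P092.H678.OV

open Vale.Agent.P092.H160 Vale.Agent.P092.H103
open Vale.Agent.P092.H962.Eq

section fac

variable {N κ : Type} [Group N] [Fintype κ]

/-- the right action of `N × N` on `N × (κ × N)` -/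
def ff (κ N : Type) [Group N] : FS (N × N) (N × (κ × N)) (Unit × κ) := (FS.reg N).prod (FS.mat κ N)

theorem ff_R (s t : N) : (ff κ N).R (s, t) = tens (rho s) (tens 1 (rho t)) := by
  rw [ff, FS.prod_R, FS.reg_R, FS.mat_R]

theorem ff_base (j : Unit × κ) : (ff κ N).base j = (1, (j.2, 1)) := rfl

theorem ff_dl (s t a b : N) (k : κ) :
    (ff κ N).R (s, t) (dl (a, (k, b))) = dl (a * s⁻¹, (k, b * t⁻¹)) := by
  rw [FS.R_dl]; rfl

theorem ff_val (s t a b : N) (k : κ) (v : Ell2 (N × (κ × N))) :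
    (ff κ N).R (s, t) v (a, (k, b)) = v (a * s, (k, b * t)) := by
  rw [FS.R_val]
  change v (a * s⁻¹⁻¹, (k, b * t⁻¹⁻¹)) = _
  rw [inv_inv, inv_inv]

/-- left translations -/
noncomputable def Lg (k k' : κ) (s t : N) : Ell2 (N × (κ × N)) →L[ℂ] Ell2 (N × (κ × N)) :=
  tens (lam s) (tens (H58.eu k k') (lam t))

theorem Lg_Cc (k k' : κ) (s t : N) : Cc (SR (ff κ N)) (Lg k k' s t) := by
  rintro _ ⟨⟨x, y⟩, rfl⟩
  rw [ff_R, Lg, ← tens_mul, ← tens_mul, ← tens_mul, ← tens_mul, rho_lam, rho_lam, one_mul, mul_one]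

theorem Lg_dl (k k' : κ) (s t a b : N) :
    Lg k k' s t (dl (a, (k', b))) = dl (s * a, (k, t * b)) := by
  rw [Lg, tens_dl, tens_dl, lam_dl, lam_dl, H58.eu_apply, dl_self, one_smul, ← dl_prod, ← dl_prod]

theorem Lg_dl_ne {k k' k'' : κ} (h : k' ≠ k'') (s t a b : N) :
    Lg k k' s t (dl (a, (k'', b))) = 0 := by
  rw [Lg, tens_dl, tens_dl, H58.eu_apply, dl_ne h, zero_smul, tv_zero_left, tv_zero_right]

theorem Lg_adj (k k' : κ) (s t : N) : adjoint (Lg k k' s t) = Lg k' k s⁻¹ t⁻¹ := by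
  rw [Lg, adjoint_tens, adjoint_tens, H58.adj_eu, adjoint_lam, adjoint_lam, Lg]

/-- **the commutant has trivial centre** -/
theorem ff_fac (hN : ∀ s : N, s ≠ 1 → Set.Infinite {y : N | ∃ h, y = h * s * h⁻¹})
    (z : Ell2 (N × (κ × N)) →L[ℂ] Ell2 (N × (κ × N))) (hz : Cc (SR (ff κ N)) z)
    (hc : ∀ y, Cc (SR (ff κ N)) y → z * y = y * z) :
    ∃ c : ℂ, z = c • (1 : Ell2 (N × (κ × N)) →L[ℂ] _) := by
  classical
  have hL : ∀ k k' s t v, z (Lg k k' s t v) = Lg k k' s t (z v) := fun k k' s t v =>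
    DFunLike.congr_fun (hc _ (Lg_Cc k k' s t)) v
  have hR : ∀ x v, z ((ff κ N).R x v) = (ff κ N).R x (z v) := fun x v => SR_eqv hz x v
  have key : ∀ k, ∃ c : ℂ, z (dl (1, (k, 1))) = c • dl (1, (k, 1)) := by
    intro k
    set v := z (dl (1, (k, 1))) with hv
    have hinv : ∀ s t, v = Lg k k s t ((ff κ N).R (s, t) v) := by
      intro s t
      rw [hv, ← hR, ← hL, ff_dl, Lg_dl]
      simp
    have hq : ∀ s t q, v q = ⟪(ff κ N).R (s, t)⁻¹ (Lg k k s⁻¹ t⁻¹ (dl q)), v⟫_ℂ := by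
      intro s t q
      rw [← inner_dl]
      conv_lhs => rw [hinv s t]
      rw [← adjoint_inner_left, Lg_adj, FS.R_right]
    have hk : ∀ a k' b, k' ≠ k → v (a, (k', b)) = 0 := by
      intro a k' b h
      rw [hq 1 1, Lg_dl_ne h.symm, map_zero, inner_zero_left]
    have hval : ∀ s t a b, v (s * a * s⁻¹, (k, t * b * t⁻¹)) = v (a, (k, b)) := by
      intro s t a b
      rw [hq s t, Lg_dl]
      change ⟪(ff κ N).R (s⁻¹, t⁻¹) _, v⟫_ℂ = _
      rw [ff_dl, inner_dl]
      congr 1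
      simp [mul_assoc]
    have ha : ∀ a b, a ≠ 1 → v (a, (k, b)) = 0 := by
      intro a b h
      refine H458.Hon.vanish_of_inv (u := v) (e := fun y : N => (y, (k, b))) ?_ (hN a h) ?_
      · intro y y' hy
        simpa using hy
      · intro s
        have := hval s 1 a b
        simpa using this
    have hb : ∀ b, b ≠ 1 → v (1, (k, b)) = 0 := by
      intro b h
      refine H458.Hon.vanish_of_inv (u := v) (e := fun y : N => (1, (k, y))) ?_ (hN b h) ?_
      · intro y y' hy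
        simpa using hy
      · intro s
        have := hval 1 s 1 b
        simpa using this
    refine ⟨v (1, (k, 1)), ?_⟩
    apply ext_inner_dl
    rintro ⟨a, ⟨k', b⟩⟩
    rw [lp.coeFn_smul, Pi.smul_apply, smul_eq_mul]
    by_cases h3 : k' = k
    · subst h3
      by_cases h4 : a = 1
      · subst h4
        by_cases h5 : b = 1
        · subst h5
          rw [dl_self, mul_one]
        · rw [hb b h5, dl_ne (by simpa using h5), mul_zero]
      · rw [ha a b h4, dl_ne (by
          intro h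
          exact h4 (congrArg Prod.fst h)), mul_zero]
    · rw [hk a k' b h3, dl_ne (by
        intro h
        exact h3 (congrArg (fun p => p.2.1) h)), mul_zero]
  by_cases hne : Nonempty κ
  · obtain ⟨k0⟩ := hne
    obtain ⟨c, hcc⟩ := key k0
    refine ⟨c, ?_⟩
    apply op_ext
    rintro ⟨a, ⟨k, b⟩⟩
    have h1 : (dl (a, (k, b)) : Ell2 (N × (κ × N))) = Lg k k0 a b (dl (1, (k0, 1))) := by
      rw [Lg_dl]
      simp
    rw [h1, hL, hcc, map_smul]
    rfl
  · refine ⟨0, ?_⟩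
    apply op_ext
    rintro ⟨a, ⟨k, b⟩⟩
    exact (hne ⟨k⟩).elim

end fac

end Vale.Agent.P092.H678.OV
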