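import Vale.Agent.P092.H421.Hs5

/-!
P092 (helper678), [OV]: irreducible systems of three commuting representations, the abstract form of
the amplified model, stable under restriction to subgroups of finite index and compression to an
irreducible part.
-/

set_option linter.all false

open scoped InnerProductSpace ENNReal
open Filter Topology ContinuousLinearMap

namespace Vale.Agent.P092.H678.OV

open Vale.Agent.P092.SR (Tri)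
open Vale.Agent.P092.H421.Hs (Frq trq Mixq)

section defs

variable {Γ ℋ : Type} [Group Γ] [NormedAddCommGroup ℋ] [InnerProductSpace ℂ ℋ] [CompleteSpace ℋ]

/-- an operator commuting with `V` and `R` and with a finite trace number is zero -/
def Hsq (V R : Γ →* (ℋ →L[ℂ] ℋ)) : Prop :=
  ∀ (Q : Type) (e : Q → ℋ), Frq R e → ∀ A : ℋ →L[ℂ] ℋ, (∀ g, A * V g = V g * A) →
    (∀ g, A * R g = R g * A) → trq e A < ∞ → A = 0

/-- the finite Parseval family, with Gram matrix on `{1} × Γ` -/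
def HTri (V R₁ R₂ : Γ →* (ℋ →L[ℂ] ℋ)) : Prop :=
  ∃ (κ : Type) (_ : Fintype κ) (ξ : κ → ℋ), Tri V R₁ R₂ ξ ∧
    ∀ γ : Γ, γ ≠ 1 → ∀ γ' i j, ⟪R₁ γ (R₂ γ' (ξ i)), ξ j⟫_ℂ = 0

/-- a finite Parseval family -/
def GTri (V R₁ R₂ : Γ →* (ℋ →L[ℂ] ℋ)) : Prop :=
  ∃ (κ : Type) (_ : Fintype κ) (ξ : κ → ℋ), Tri V R₁ R₂ ξ

/-- **An irreducible system**: the source `V` and the two targets `R₁`, `R₂`. -/
structure Sys (V R₁ R₂ : Γ →* (ℋ →L[ℂ] ℋ)) : Prop where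
  basis : ∃ (B : Type) (_ : Countable B), Nonempty (HilbertBasis B ℂ ℋ)
  t₁ : HTri V R₁ R₂
  t₂ : HTri V R₂ R₁
  g₁ : GTri R₁ V R₂
  g₂ : GTri R₂ V R₁
  irr : ∀ A : ℋ →L[ℂ] ℋ, (∀ v, A * V v = V v * A) → (∀ g, A * R₁ g = R₁ g * A) →
    (∀ g, A * R₂ g = R₂ g * A) → ∃ z : ℂ, A = z • (1 : ℋ →L[ℂ] ℋ)
  hs₁ : Hsq V R₁
  hs₂ : Hsq V R₂

theorem Sys.swap {V R₁ R₂ : Γ →* (ℋ →L[ℂ] ℋ)} (h : Sys V R₁ R₂) : Sys V R₂ R₁ :=
  ⟨h.basis, h.t₂, h.t₁, h.g₂, h.g₁, fun A h0 h1 h2 => h.irr A h0 h2 h1, h.hs₂, h.hs₁⟩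

/-- overlap of the source with the target (the same as `H264.Amp.Over`) -/
def OverV (V R₁ R₂ : Γ →* (ℋ →L[ℂ] ℋ)) : Prop :=
  ∃ (r : ℕ) (ζ : Fin r → ℋ) (κ : ℝ), 0 < κ ∧
    ∀ g, ∃ i j, ∃ a b : Γ, κ ≤ ‖⟪V g (ζ i), R₁ a (R₂ b (ζ j))⟫_ℂ‖

end defs

/-- `g` has infinitely many conjugates, for all `g ≠ 1` -/
def Icc (Γ : Type) [Group Γ] : Prop := ∀ g : Γ, g ≠ 1 → Set.Infinite {y : Γ | ∃ h, y = h * g * h⁻¹}

/-- **The core statement of `E` for abstract systems.** -/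
def OverStmt (E : Type) [Group E] [TopologicalSpace E] : Prop :=
  ∀ Γ : Subgroup E, H515.St.IsLattice Γ → Icc Γ → ∀ (ℋ : Type) [NormedAddCommGroup ℋ]
    [InnerProductSpace ℂ ℋ] [CompleteSpace ℋ] (V R₁ R₂ : Γ →* (ℋ →L[ℂ] ℋ)), Sys V R₁ R₂ →
    OverV V R₁ R₂

end Vale.Agent.P092.H678.OV
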