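import Vale.Agent.P092.H678.O.Fac
import Vale.Agent.P092.H678.O.Sys

/-!
P092 (helper678), [OV]: a system with a finite Parseval family has an honest one (`N` ICC).
-/

set_option linter.all false

open scoped InnerProductSpace ENNReal
open ContinuousLinearMap Filter Topology

namespace Vale.Agent.P092.H678.OV

open Vale.Agent.P092.H160 Vale.Agent.P092.H103
open Vale.Agent.P092.H962.Eq
open Vale.Agent.P092.SR (Tri)
open Vale.Agent.P092.H421.Hs (Frq trq Mixq Pf ana)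

section hon

variable {N κ ℋ : Type} [Group N] [Fintype κ] [NormedAddCommGroup ℋ] [InnerProductSpace ℂ ℋ]
  [CompleteSpace ℋ] {V R₁ R₂ : N →* (ℋ →L[ℂ] ℋ)} {η : κ → ℋ}

/-- the vectors of the analysis map -/
noncomputable def gv (R₁ R₂ : N →* (ℋ →L[ℂ] ℋ)) (η : κ → ℋ) : N × (κ × N) → ℋ :=
  fun p => R₁ p.1⁻¹ (R₂ p.2.2⁻¹ (η p.2.1))

/-- the index bijection -/
def eG (κ N : Type) [Group N] : κ × N × N ≃ N × (κ × N) where
  toFun p := (p.2.1⁻¹, (p.1, p.2.2⁻¹))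
  invFun q := (q.2.1, q.1⁻¹, q.2.2⁻¹)
  left_inv p := by simp
  right_inv q := by simp

theorem pf_gv (h : Tri V R₁ R₂ η) : Pf (gv R₁ R₂ η) := by
  refine Vale.Agent.P092.H421.Hs.pf_of_hasSum fun v => ?_
  have h1 := (eG κ N).symm.hasSum_iff.2 (h.frame v)
  refine h1.congr_fun ?_ |> id
  rintro ⟨a, k, b⟩
  rfl

variable (h : Tri V R₁ R₂ η)

/-- the analysis map -/
noncomputable def Ug : ℋ →L[ℂ] Ell2 (N × (κ × N)) := (ana (pf_gv h)).toContinuousLinearMap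

theorem Ug_ap (v : ℋ) (p : N × (κ × N)) : Ug h v p = ⟪gv R₁ R₂ η p, v⟫_ℂ := rfl

theorem Ug_norm (v : ℋ) : ‖Ug h v‖ = ‖v‖ := (ana (pf_gv h)).norm_map v

theorem adjUg_dl (p : N × (κ × N)) : adjoint (Ug h) (dl p) = gv R₁ R₂ η p := by
  refine ext_inner_right ℂ fun v => ?_
  rw [adjoint_inner_left, inner_dl, Ug_ap]

theorem adjUg_Ug (v : ℋ) : adjoint (Ug h) (Ug h v) = v := by
  refine ext_inner_right ℂ fun w => ?_
  rw [adjoint_inner_left]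
  exact (ana (pf_gv h)).inner_map_map v w

theorem ap_mul' (U : N →* (ℋ →L[ℂ] ℋ)) (g k : N) (v : ℋ) : U (g * k) v = U g (U k v) := by
  rw [map_mul]; rfl

theorem Ug_R (s t : N) (v : ℋ) : Ug h (R₁ s (R₂ t v)) = (ff κ N).R (s, t) (Ug h v) := by
  apply ext_inner_dl
  rintro ⟨a, k, b⟩
  rw [ff_val, Ug_ap, Ug_ap]
  change ⟪R₁ a⁻¹ (R₂ b⁻¹ (η k)), R₁ s (R₂ t v)⟫_ℂ = ⟪R₁ (a * s)⁻¹ (R₂ (b * t)⁻¹ (η k)), v⟫_ℂ
  have c1 : ∀ g k u, R₁ g (R₂ k u) = R₂ k (R₁ g u) := fun g k u =>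
    DFunLike.congr_fun (h.comm₁₂ g k) u
  rw [← adjoint_inner_left, h.adj₁, ← ap_mul', c1, ← adjoint_inner_left, h.adj₂, ← ap_mul', ← c1,
    mul_inv_rev, mul_inv_rev]

theorem adjUg_R (s t : N) (w : Ell2 (N × (κ × N))) :
    adjoint (Ug h) ((ff κ N).R (s, t) w) = R₁ s (R₂ t (adjoint (Ug h) w)) := by
  refine ext_inner_right ℂ fun v => ?_
  have c1 : ∀ g k u, R₁ g (R₂ k u) = R₂ k (R₁ g u) := fun g k u =>
    DFunLike.congr_fun (h.comm₁₂ g k) u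
  rw [adjoint_inner_left, FS.R_left]
  change ⟪w, (ff κ N).R (s⁻¹, t⁻¹) (Ug h v)⟫_ℂ = _
  rw [← Ug_R, ← adjoint_inner_left, ← h.adj₁, c1, adjoint_inner_right, ← h.adj₂,
    adjoint_inner_right]

/-- the range projection -/
noncomputable def eU : Ell2 (N × (κ × N)) →L[ℂ] Ell2 (N × (κ × N)) := Ug h ∘L adjoint (Ug h)

theorem eU_Cc : Cc (SR (ff κ N)) (eU h) := by
  rintro _ ⟨⟨s, t⟩, rfl⟩
  ext1 w
  change Ug h (adjoint (Ug h) ((ff κ N).R (s, t) w)) = (ff κ N).R (s, t) (Ug h (adjoint (Ug h) w))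
  rw [adjUg_R, Ug_R]

theorem eU_adj : adjoint (eU h) = eU h := by
  rw [eU, adjoint_comp, adjoint_adjoint]

theorem eU_sq : eU h * eU h = eU h := by
  ext1 w
  change Ug h (adjoint (Ug h) (Ug h (adjoint (Ug h) w))) = Ug h (adjoint (Ug h) w)
  rw [adjUg_Ug]

theorem eU_tr : ∑ j, ⟪(dl ((ff κ N).base j) : Ell2 (N × (κ × N))), eU h (dl ((ff κ N).base j))⟫_ℂ =
    ((∑ k, ‖η k‖ ^ 2 : ℝ) : ℂ) := by
  have h1 : ∀ j : Unit × κ, ⟪(dl ((ff κ N).base j) : Ell2 (N × (κ × N))),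
      eU h (dl ((ff κ N).base j))⟫_ℂ = ((‖η j.2‖ ^ 2 : ℝ) : ℂ) := by
    intro j
    rw [ff_base]
    change ⟪(dl (1, (j.2, 1)) : Ell2 (N × (κ × N))), Ug h (adjoint (Ug h) (dl (1, (j.2, 1))))⟫_ℂ = _
    rw [← adjoint_inner_left, adjUg_dl]
    have h2 : gv R₁ R₂ η (1, (j.2, 1)) = η j.2 := by
      change R₁ (1 : N)⁻¹ (R₂ (1 : N)⁻¹ (η j.2)) = _
      rw [inv_one, map_one, map_one]; rfl
    rw [h2, inner_self_eq_norm_sq_to_K]
    norm_cast
  rw [Finset.sum_congr rfl fun j _ => h1 j, Fintype.sum_prod_type]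
  simp

include h in
theorem norm_eta_le (k : κ) : ‖η k‖ ≤ 1 := by
  have h2 : gv R₁ R₂ η (1, (k, 1)) = η k := by
    change R₁ (1 : N)⁻¹ (R₂ (1 : N)⁻¹ (η k)) = _
    rw [inv_one, map_one, map_one]; rfl
  rw [← h2, ← adjUg_dl h]
  refine (ContinuousLinearMap.le_opNorm _ _).trans ?_
  rw [norm_dl, mul_one, LinearIsometryEquiv.norm_map]
  exact ContinuousLinearMap.opNorm_le_bound _ zero_le_one fun v => by rw [Ug_norm, one_mul]

include h in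
/-- **An honest family.** -/
theorem exists_hon [Infinite N] (hN : Icc N) : ∃ ξ : κ → ℋ, Tri V R₁ R₂ ξ ∧
    ∀ γ : N, γ ≠ 1 → ∀ γ' i j, ⟪R₁ γ (R₂ γ' (ξ i)), ξ j⟫_ℂ = 0 := by
  classical
  set d : ℝ := ∑ k, ‖η k‖ ^ 2 with hd
  have hd0 : 0 ≤ d := Finset.sum_nonneg fun _ _ => sq_nonneg _
  have hd1 : d ≤ Fintype.card κ := by
    have h1 : d ≤ ∑ k : κ, (1 : ℝ) := Finset.sum_le_sum fun k _ => by
      have := norm_eta_le h k
      have := norm_nonneg (η k)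
      nlinarith
    simpa using h1
  obtain ⟨P, hPC, hPa, hPP, hPd⟩ := exists_trN (N := N) (κ := κ) hd0 hd1
  set f : Ell2 (N × (κ × N)) →L[ℂ] Ell2 (N × (κ × N)) := tens 1 P with hf
  have hfC : Cc (SR (ff κ N)) f := by
    rintro _ ⟨⟨s, t⟩, rfl⟩
    have h1 := hPC _ ⟨t, rfl⟩
    rw [FS.mat_R] at h1
    rw [ff_R, hf, ← tens_mul, ← tens_mul, h1, one_mul, mul_one]
  have hfa : adjoint f = f := by rw [hf, adjoint_tens, adjoint_one, hPa]
  have hff : f * f = f := by rw [hf, ← tens_mul, hPP, one_mul]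
  have hft : ∑ j, ⟪(dl ((ff κ N).base j) : Ell2 (N × (κ × N))), f (dl ((ff κ N).base j))⟫_ℂ =
      ((d : ℝ) : ℂ) := by
    have h1 : ∀ j : Unit × κ, ⟪(dl ((ff κ N).base j) : Ell2 (N × (κ × N))),
        f (dl ((ff κ N).base j))⟫_ℂ = ((‖P (dl (j.2, 1))‖ ^ 2 : ℝ) : ℂ) := by
      intro j
      rw [ff_base, hf, tens_dl, dl_prod, inner_tv, one_apply_eq_self, inner_dl, dl_self, one_mul]
      have h2 : P (P (dl (j.2, 1))) = P (dl (j.2, 1)) := DFunLike.congr_fun hPP _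
      have h3 : ⟪(dl (j.2, 1) : Ell2 (κ × N)), P (dl (j.2, 1))⟫_ℂ =
          ⟪P (dl (j.2, 1)), P (dl (j.2, 1))⟫_ℂ := by
        conv_lhs => rw [← h2]
        rw [← adjoint_inner_left, hPa]
      rw [h3, inner_self_eq_norm_sq_to_K]
      norm_cast
    rw [Finset.sum_congr rfl fun j _ => h1 j, Fintype.sum_prod_type, ← hPd]
    simp
  obtain ⟨w, hwC, hw1, hw2⟩ := exists_equiv (SR_adj _) (fun z hz hc => ff_fac hN z hz hc)
    (ξ := fun j => (dl ((ff κ N).base j) : Ell2 (N × (κ × N))))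
    (fun x y hx hy => SR_trace _ x y hx hy) (fun x hx h => SR_faithful _ x hx h) (eU_Cc h) hfC
    (eU_adj h) hfa (eU_sq h) hff ((eU_tr h).trans hft.symm)
  -- `w f = w`
  have hwf : w * f = w := by
    ext1 v
    have h1 : w (f v - v) = 0 := by
      have h2 : ⟪w (f v - v), w (f v - v)⟫_ℂ = 0 := by
        rw [← adjoint_inner_right]
        have h3 : adjoint w (w (f v - v)) = f (f v - v) := DFunLike.congr_fun hw1 _
        have h4 : f (f v - v) = 0 := by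
          rw [map_sub]
          have : f (f v) = f v := DFunLike.congr_fun hff v
          rw [this, sub_self]
        rw [h3, h4, inner_zero_right]
      exact inner_self_eq_zero.1 h2
    rw [map_sub, sub_eq_zero] at h1
    exact h1
  have hew : eU h * w = w := by rw [← hw2, mul_assoc, hw1, hwf]
  set ξ : κ → ℋ := fun k => adjoint (Ug h) (w (dl (1, (k, 1)))) with hξ
  have hR : ∀ s t k, R₁ s (R₂ t (ξ k)) = adjoint (Ug h) (w (dl (s⁻¹, (k, t⁻¹)))) := by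
    intro s t k
    rw [hξ]
    change R₁ s (R₂ t (adjoint (Ug h) (w (dl (1, (k, 1)))))) = _
    rw [← adjUg_R, ← SR_eqv hwC, ff_dl, one_mul, one_mul]
  have hframe : ∀ v : ℋ, HasSum (fun p : κ × N × N => ‖⟪R₁ p.2.1 (R₂ p.2.2 (ξ p.1)), v⟫_ℂ‖ ^ 2)
      (‖v‖ ^ 2) := by
    intro v
    have h1 : ‖adjoint w (Ug h v)‖ ^ 2 = ‖v‖ ^ 2 := by
      have h2 : ⟪adjoint w (Ug h v), adjoint w (Ug h v)⟫_ℂ = ⟪v, v⟫_ℂ := by
        rw [adjoint_inner_left]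
        have h3 : w (adjoint w (Ug h v)) = eU h (Ug h v) := DFunLike.congr_fun hw2 _
        have h4 : eU h (Ug h v) = Ug h v := by
          change Ug h (adjoint (Ug h) (Ug h v)) = _
          rw [adjUg_Ug]
        rw [h3, h4]
        exact (ana (pf_gv h)).inner_map_map v v
      rw [inner_self_eq_norm_sq_to_K, inner_self_eq_norm_sq_to_K] at h2
      exact_mod_cast h2
    have h5 : HasSum (fun p => ‖adjoint w (Ug h v) p‖ ^ 2) (‖adjoint w (Ug h v)‖ ^ 2) := by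
      rw [norm_sq]
      exact (summable_sq _).hasSum
    rw [h1] at h5
    have h6 := (eG κ N).hasSum_iff.2 h5
    refine h6.congr_fun ?_ |> id
    rintro ⟨k, a, b⟩
    change ‖⟪R₁ a (R₂ b (ξ k)), v⟫_ℂ‖ ^ 2 = ‖adjoint w (Ug h v) (a⁻¹, (k, b⁻¹))‖ ^ 2
    rw [hR, adjoint_inner_left, ← adjoint_inner_right, inner_dl]
  refine ⟨ξ, ⟨h.adjV, h.adj₁, h.adj₂, h.comm₁, h.comm₂, h.comm₁₂, ?_, hframe⟩, ?_⟩
  · by_contra hcon
    push Not at hcon
    obtain ⟨k, hk⟩ := h.ne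
    have h1 := hframe (η k)
    have h2 : (fun p : κ × N × N => ‖⟪R₁ p.2.1 (R₂ p.2.2 (ξ p.1)), η k⟫_ℂ‖ ^ 2) = fun _ => 0 := by
      funext p
      rw [hcon, map_zero, map_zero, inner_zero_left, norm_zero]
      norm_num
    rw [h2] at h1
    exact (pow_ne_zero 2 (norm_ne_zero_iff.2 hk)) (h1.unique hasSum_zero)
  · intro γ hγ γ' i j
    rw [hR]
    have h1 : ξ j = adjoint (Ug h) (w (dl (1, (j, 1)))) := rfl
    rw [h1, adjoint_inner_left]
    change ⟪w (dl (γ⁻¹, (i, γ'⁻¹))), (eU h * w) (dl (1, (j, 1)))⟫_ℂ = 0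
    rw [hew, ← adjoint_inner_right]
    have h2 : adjoint w (w (dl (1, (j, 1)))) = f (dl (1, (j, 1))) := DFunLike.congr_fun hw1 _
    rw [h2, inner_dl, hf, tens_dl]
    change (1 : Ell2 N →L[ℂ] Ell2 N) (dl 1) γ⁻¹ * _ = 0
    rw [one_apply_eq_self, dl_ne (by simpa using hγ), zero_mul]

end hon

theorem htri_of_gtri {N ℋ : Type} [Group N] [Infinite N] [NormedAddCommGroup ℋ]
    [InnerProductSpace ℂ ℋ] [CompleteSpace ℋ] {V R₁ R₂ : N →* (ℋ →L[ℂ] ℋ)} (hN : Icc N)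
    (h : GTri V R₁ R₂) : HTri V R₁ R₂ := by
  obtain ⟨κ, _, η, h1⟩ := h
  obtain ⟨ξ, h2, h3⟩ := exists_hon h1 hN
  exact ⟨κ, inferInstance, ξ, h2, h3⟩

end Vale.Agent.P092.H678.OV
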