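import Vale.Agent.P092.H962.EqP

/-!
P092 (helper678), [OV]: minimal projections in a commutant with a faithful vector functional, and
projections with a given trace number.
-/

set_option linter.all false

open scoped InnerProductSpace
open ContinuousLinearMap Filter Topology

namespace Vale.Agent.P092.H678.OV

open Vale.Agent.P092.H962.Eq

section gen

variable {ℋ : Type} [NormedAddCommGroup ℋ] [InnerProductSpace ℂ ℋ] [CompleteSpace ℋ]
  {S : Set (ℋ →L[ℂ] ℋ)}

/-- the nonzero projections of the commutant -/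
structure PjS (S : Set (ℋ →L[ℂ] ℋ)) (r : ℋ →L[ℂ] ℋ) : Prop where
  cc : Cc S r
  adj : adjoint r = r
  sq : r * r = r
  ne : r ≠ 0

/-- the vector functional -/
noncomputable def vf {ι : Type} [Fintype ι] (ξ : ι → ℋ) (A : ℋ →L[ℂ] ℋ) : ℂ := ∑ i, ⟪ξ i, A (ξ i)⟫_ℂ

/-- the square sums -/
noncomputable def ns {ι : Type} [Fintype ι] (ξ : ι → ℋ) (B : ℋ →L[ℂ] ℋ) : ℝ := ∑ i, ‖B (ξ i)‖ ^ 2

variable {ι : Type} [Fintype ι] {ξ : ι → ℋ}

theorem vf_add (A B : ℋ →L[ℂ] ℋ) : vf ξ (A + B) = vf ξ A + vf ξ B := by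
  rw [vf, vf, vf, ← Finset.sum_add_distrib]
  exact Finset.sum_congr rfl fun i _ => by rw [ContinuousLinearMap.add_apply, inner_add_right]

theorem vf_smul (z : ℂ) (A : ℋ →L[ℂ] ℋ) : vf ξ (z • A) = z * vf ξ A := by
  rw [vf, vf, Finset.mul_sum]
  exact Finset.sum_congr rfl fun i _ => by rw [ContinuousLinearMap.smul_apply, inner_smul_right]

theorem vf_sq (B : ℋ →L[ℂ] ℋ) : vf ξ (adjoint B * B) = (ns ξ B : ℂ) := by
  rw [vf, ns, Complex.ofReal_sum]
  refine Finset.sum_congr rfl fun i _ => ?_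
  change ⟪ξ i, adjoint B (B (ξ i))⟫_ℂ = _
  rw [adjoint_inner_right, inner_self_eq_norm_sq_to_K]
  norm_cast

theorem ns_nonneg (B : ℋ →L[ℂ] ℋ) : 0 ≤ ns ξ B := Finset.sum_nonneg fun _ _ => sq_nonneg _

theorem ns_split {p r : ℋ →L[ℂ] ℋ} (hpa : adjoint p = p) (hra : adjoint r = r)
    (hrr : r * r = r) (hpr : p * r = r) :
    ns ξ p = ns ξ r + ns ξ (p - r) := by
  have hrp : r * p = r := by
    have := congrArg adjoint hpr
    rwa [adj_mul', hpa, hra] at this
  rw [ns, ns, ns, ← Finset.sum_add_distrib]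
  refine Finset.sum_congr rfl fun i _ => ?_
  set v := ξ i
  have h0 : r ((p - r) v) = 0 := by
    change (r * (p - r)) v = 0
    rw [mul_sub, hrp, hrr, sub_self]; rfl
  have h1 : ⟪r v, (p - r) v⟫_ℂ = 0 := by
    have h00 : ⟪r v, (p - r) v⟫_ℂ = ⟪v, r ((p - r) v)⟫_ℂ := by
      rw [← adjoint_inner_right, hra]
    rw [h00, h0, inner_zero_right]
  have h2 : p v = r v + (p - r) v := by
    rw [ContinuousLinearMap.sub_apply]; abel
  rw [h2, sq, sq, sq, norm_add_sq_eq_norm_sq_add_norm_sq_of_inner_eq_zero _ _ h1]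

variable (hS : ∀ s ∈ S, adjoint s ∈ S) (hfa : ∀ x, Cc S x → (∀ i, x (ξ i) = 0) → x = 0)

include hfa in
theorem ns_zero {B : ℋ →L[ℂ] ℋ} (hB : Cc S B) (h0 : ns ξ B = 0) : B = 0 := by
  refine hfa B hB fun i => ?_
  have h1 := (Finset.sum_eq_zero_iff_of_nonneg (fun i _ => sq_nonneg ‖B (ξ i)‖)).1 h0 i
    (Finset.mem_univ i)
  exact norm_eq_zero.1 ((pow_eq_zero_iff two_ne_zero).1 h1)

include hS hfa in
/-- a minimal projection reduces the commutant to the scalars -/
theorem scalar_gen {p : ℋ →L[ℂ] ℋ} (hp : PjS S p) (hmin : ∀ r, PjS S r → p * r = r → r = p)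
    {A : ℋ →L[ℂ] ℋ} (hA : Cc S A) (hAa : adjoint A = A) : ∃ z : ℂ, p * A * p = z • p := by
  have hc0 : (ns ξ p : ℂ) ≠ 0 := by
    have h : ns ξ p ≠ 0 := fun h => hp.ne (ns_zero hfa hp.cc h)
    exact_mod_cast h
  have hcp : vf ξ p = (ns ξ p : ℂ) := by
    rw [← vf_sq, hp.adj, hp.sq]
  have hE : adjoint (p * A * p) = p * A * p := by
    rw [adj_mul', adj_mul', hp.adj, hAa, mul_assoc]
  have hEC : Cc S (p * A * p) := (hp.cc.mul hA).mul hp.cc
  set z := vf ξ (p * A * p) / vf ξ p with hz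
  -- `z` is real
  have hcr : (starRingEnd ℂ) (vf ξ (p * A * p)) = vf ξ (p * A * p) := by
    rw [vf, map_sum]
    refine Finset.sum_congr rfl fun i _ => ?_
    rw [inner_conj_symm]
    conv_lhs => rw [← hE]
    rw [adjoint_inner_left]
  have hzr : (starRingEnd ℂ) z = z := by
    rw [hz, map_div₀, hcr, hcp, Complex.conj_ofReal]
  refine ⟨z, ?_⟩
  by_contra hne
  set D := p * A * p - z • p with hD
  have hD0 : D ≠ 0 := sub_ne_zero.2 hne
  have hDa : adjoint D = D := by
    rw [hD, map_sub, hE]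
    congr 1
    have : adjoint (z • p) = (starRingEnd ℂ) z • adjoint p := star_smul z p
    rw [this, hzr, hp.adj]
  have hDs : IsSelfAdjoint D := hDa
  have hzp : Cc S (z • p) := fun s hs => by
    rw [smul_mul_assoc, hp.cc s hs, mul_smul_comm]
  have hDC : Cc S D := hEC.sub hzp
  have hcD : vf ξ D = 0 := by
    have h1 : D = p * A * p + (-z) • p := by rw [hD, neg_smul]; abel
    rw [h1, vf_add, vf_smul, hz]
    field_simp
    ring_nf
    rw [hcp]
    field_simp
    ring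
  have hDp : D * p = D := by
    rw [hD, sub_mul, smul_mul_assoc, hp.sq, mul_assoc, hp.sq]
  have hpD : p * D = D := by
    have := congrArg adjoint hDp
    rwa [adj_mul', hp.adj, hDa] at this
  have hcomm : ∀ f : ℝ → ℝ, Cc S (cfc f D) := by
    intro f s hs
    exact (hDs.commute_cfc (show Commute D s from hDC s hs) f)
  -- positive and negative parts
  set f₁ : ℝ → ℝ := fun t => Real.sqrt (max t 0) with hf₁
  set f₂ : ℝ → ℝ := fun t => Real.sqrt (max (-t) 0) with hf₂
  have hf₁c : Continuous f₁ := Real.continuous_sqrt.comp (continuous_id.max continuous_const)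
  have hf₂c : Continuous f₂ := Real.continuous_sqrt.comp (continuous_neg.max continuous_const)
  set B₁ := cfc f₁ D with hB₁
  set B₂ := cfc f₂ D with hB₂
  have hB₁a : adjoint B₁ = B₁ := (cfc_predicate f₁ D : IsSelfAdjoint _)
  have hB₂a : adjoint B₂ = B₂ := (cfc_predicate f₂ D : IsSelfAdjoint _)
  have hid : cfc (fun t : ℝ => t) D = D := cfc_id' ℝ D hDs
  have h11 : B₁ * B₁ = cfc (fun t => f₁ t * f₁ t) D :=
    (cfc_mul f₁ f₁ D hf₁c.continuousOn hf₁c.continuousOn).symm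
  have h22 : B₂ * B₂ = cfc (fun t => f₂ t * f₂ t) D :=
    (cfc_mul f₂ f₂ D hf₂c.continuousOn hf₂c.continuousOn).symm
  have h12 : B₁ * B₂ = 0 := by
    rw [hB₁, hB₂, ← cfc_mul f₁ f₂ D hf₁c.continuousOn hf₂c.continuousOn]
    have h0 : (fun t => f₁ t * f₂ t) = fun _ => (0 : ℝ) := by
      funext t
      rcases le_total t 0 with h | h
      · have : f₁ t = 0 := by rw [hf₁]; simp [max_eq_right h]
        rw [this, zero_mul]
      · have : f₂ t = 0 := by
          rw [hf₂]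
          have h1 : max (-t) 0 = 0 := max_eq_right (by linarith)
          simp [h1]
        rw [this, mul_zero]
    rw [h0]
    exact cfc_const_zero ℝ D
  have h21 : B₂ * B₁ = 0 := by
    have := congrArg adjoint h12
    rwa [adj_mul', hB₁a, hB₂a, map_zero] at this
  have hdec : D = B₁ * B₁ - B₂ * B₂ := by
    rw [h11, h22, ← cfc_sub (fun t => f₁ t * f₁ t) (fun t => f₂ t * f₂ t) D
      (hf₁c.mul hf₁c).continuousOn (hf₂c.mul hf₂c).continuousOn]
    conv_lhs => rw [← hid]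
    refine cfc_congr fun t _ => ?_
    change t = f₁ t * f₁ t - f₂ t * f₂ t
    rw [hf₁, hf₂]
    simp only []
    rw [Real.mul_self_sqrt (le_max_right _ _), Real.mul_self_sqrt (le_max_right _ _)]
    rcases le_total t 0 with h | h
    · rw [max_eq_right h, max_eq_left (by linarith)]; ring
    · rw [max_eq_left h, max_eq_right (by linarith)]; ring
  have hB₁C := hcomm f₁
  have hB₂C := hcomm f₂
  have hn : ns ξ B₁ = ns ξ B₂ := by
    have h1 : vf ξ D = vf ξ (adjoint B₁ * B₁) + (-1) * vf ξ (adjoint B₂ * B₂) := by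
      rw [← vf_smul, ← vf_add, hB₁a, hB₂a]
      congr 1
      conv_lhs => rw [hdec]
      rw [neg_one_smul]; abel
    rw [hcD, vf_sq, vf_sq] at h1
    have h2 : (ns ξ B₁ : ℂ) = (ns ξ B₂ : ℂ) := by linear_combination (-1 : ℂ) * h1
    exact_mod_cast h2
  have hz0 : ∀ B : ℋ →L[ℂ] ℋ, Cc S B → ns ξ B = 0 → B = 0 := fun B hB h => ns_zero hfa hB h
  have hB₁0 : B₁ ≠ 0 := by
    intro h
    have h1 : ns ξ B₁ = 0 := by
      rw [h, ns]
      exact Finset.sum_eq_zero fun q _ => by simp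
    have h2 := hz0 B₂ hB₂C (hn ▸ h1)
    exact hD0 (by rw [hdec, h, h2, mul_zero, sub_zero])
  have hB₂0 : B₂ ≠ 0 := by
    intro h
    have h1 : ns ξ B₂ = 0 := by
      rw [h, ns]
      exact Finset.sum_eq_zero fun q _ => by simp
    have h2 := hz0 B₁ hB₁C (hn.symm ▸ h1)
    exact hB₁0 h2
  have hx : B₁ * D = B₁ * B₁ * B₁ := by
    conv_lhs => rw [hdec]
    rw [mul_sub, ← mul_assoc, ← mul_assoc B₁ B₂, h12, zero_mul, sub_zero]
  have hx0 : B₁ * B₁ * B₁ ≠ 0 := by
    intro h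
    have h1 : adjoint B₁ * B₁ ≠ 0 := adj_mul_self_ne hB₁0
    rw [hB₁a] at h1
    have h2 := adj_mul_self_ne h1
    rw [adj_mul', hB₁a, ← mul_assoc, h, zero_mul] at h2
    exact h2 rfl
  obtain ⟨a, q, haC, hqC, haa, hqa, hqq, hq0, -, hqf⟩ := exists_pi hS
    ((hB₁C.mul hB₁C).mul hB₁C) hx0
  have hqp : q * p = q := hqf p hp.adj (by rw [← hx, mul_assoc, hDp])
  have hpq : p * q = q := by
    have := congrArg adjoint hqp
    rwa [adj_mul', hp.adj, hqa] at this
  have hqe : q = p := hmin q ⟨hqC, hqa, hqq, hq0⟩ hpq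
  -- the kernel of `B₂`
  set F : Submodule ℂ ℋ := LinearMap.ker (B₂ : ℋ →ₗ[ℂ] ℋ) with hF
  have hFm : ∀ v, v ∈ F ↔ B₂ v = 0 := fun v => by rw [hF, LinearMap.mem_ker]; rfl
  haveI : CompleteSpace F := (ContinuousLinearMap.isClosed_ker B₂).completeSpace_coe
  have hfB : F.starProjection * B₁ = B₁ := by
    ext1 v
    refine Submodule.starProjection_eq_self_iff.2 ((hFm _).2 ?_)
    exact DFunLike.congr_fun h21 v
  have hBf : B₁ * F.starProjection = B₁ := by
    have := congrArg adjoint hfB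
    rwa [adj_mul', hB₁a, adj_starProjection] at this
  have hqf2 : q * F.starProjection = q := hqf _ (adj_starProjection F) (by rw [mul_assoc, hBf])
  have hfp : F.starProjection * p = p := by
    rw [hqe] at hqf2
    have := congrArg adjoint hqf2
    rwa [adj_mul', hp.adj, adj_starProjection] at this
  have hB2p : B₂ * p = 0 := by
    ext1 v
    have h1 : F.starProjection (p v) = p v := DFunLike.congr_fun hfp v
    have h2 : p v ∈ F := Submodule.starProjection_eq_self_iff.1 h1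
    exact (hFm _).1 h2
  have hB2D : B₂ * D = 0 := by rw [← hpD, ← mul_assoc, hB2p, zero_mul]
  have hB23 : B₂ * B₂ * B₂ = 0 := by
    have h1 : B₂ * D = -(B₂ * B₂ * B₂) := by
      conv_lhs => rw [hdec]
      rw [mul_sub, ← mul_assoc, h21, zero_mul, zero_sub, mul_assoc]
    rw [h1] at hB2D
    exact neg_eq_zero.1 hB2D
  have h1 : adjoint B₂ * B₂ ≠ 0 := adj_mul_self_ne hB₂0
  rw [hB₂a] at h1
  have h2 := adj_mul_self_ne h1
  rw [adj_mul', hB₂a, ← mul_assoc, hB23, zero_mul] at h2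
  exact h2 rfl

include hS hfa in
theorem scalar_genAll {p : ℋ →L[ℂ] ℋ} (hp : PjS S p) (hmin : ∀ r, PjS S r → p * r = r → r = p)
    {A : ℋ →L[ℂ] ℋ} (hA : Cc S A) : ∃ z : ℂ, p * A * p = z • p := by
  have hAs := hA.adj hS
  obtain ⟨z₁, h1⟩ := scalar_gen hS hfa hp hmin (hA.add hAs) (by
    rw [map_add, adj_adj', add_comm])
  have hC2 : Cc S (Complex.I • (A - adjoint A)) := fun s hs => by
    rw [smul_mul_assoc, (hA.sub hAs) s hs, mul_smul_comm]
  obtain ⟨z₂, h2⟩ := scalar_gen hS hfa hp hmin hC2 (by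
    have : adjoint (Complex.I • (A - adjoint A)) =
      (starRingEnd ℂ) Complex.I • adjoint (A - adjoint A) := star_smul Complex.I _
    rw [this, map_sub, adj_adj', Complex.conj_I, neg_smul, ← smul_neg, neg_sub])
  refine ⟨(1 / 2) * z₁ - (Complex.I / 2) * z₂, ?_⟩
  have e : A = (1 / 2 : ℂ) • (A + adjoint A) + (-(Complex.I / 2)) • (Complex.I • (A - adjoint A)) := by
    rw [smul_smul]
    have : -(Complex.I / 2) * Complex.I = 1 / 2 := by
      have := Complex.I_mul_I
      linear_combination (-1 / 2 : ℂ) * this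
    rw [this, ← smul_add, add_add_sub_cancel, ← two_smul ℂ A, smul_smul]
    norm_num
  conv_lhs => rw [e]
  rw [mul_add, add_mul, mul_smul_comm, smul_mul_assoc, mul_smul_comm, smul_mul_assoc, h1, h2,
    smul_smul, smul_smul, ← add_smul]
  congr 1
  ring

/-! ### Projections with a given trace number -/

variable (hno : ∀ p, PjS S p → ∃ r, PjS S r ∧ p * r = r ∧ r ≠ p)

theorem PjS.sub {p r : ℋ →L[ℂ] ℋ} (hp : PjS S p) (hr : PjS S r) (h : p * r = r) (hne : r ≠ p) :
    PjS S (p - r) := by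
  have hrp : r * p = r := by
    have := congrArg adjoint h
    rwa [adj_mul', hp.adj, hr.adj] at this
  refine ⟨hp.cc.sub hr.cc, by rw [map_sub, hp.adj, hr.adj], ?_, fun h0 => ?_⟩
  · rw [sub_mul, mul_sub, mul_sub, hp.sq, h, hrp, hr.sq, sub_self, sub_zero]
  · exact hne (sub_eq_zero.1 h0).symm

include hno in
theorem exists_small {p : ℋ →L[ℂ] ℋ} (hp : PjS S p) (n : ℕ) :
    ∃ r, PjS S r ∧ p * r = r ∧ ns ξ r ≤ ns ξ p / 2 ^ n := by
  induction n with
  | zero => exact ⟨p, hp, hp.sq, by simp⟩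
  | succ n ih =>
    obtain ⟨r, hr, hpr, hn⟩ := ih
    obtain ⟨q, hq, hrq, hne⟩ := hno r hr
    have h1 := ns_split (ξ := ξ) hr.adj hq.adj hq.sq hrq
    have h2 : ns ξ p / 2 ^ (n + 1) = ns ξ p / 2 ^ n / 2 := by rw [pow_succ]; field_simp
    rcases le_total (ns ξ q) (ns ξ (r - q)) with h | h
    · refine ⟨q, hq, by rw [← hrq, ← mul_assoc, hpr], ?_⟩
      rw [h2]; linarith
    · refine ⟨r - q, hr.sub hq hrq hne, by
        rw [mul_sub, hpr]
        congr 1
        rw [← hrq, ← mul_assoc, hpr], ?_⟩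
      rw [h2]; linarith

include hno in
theorem exists_small' {p : ℋ →L[ℂ] ℋ} (hp : PjS S p) {ε : ℝ} (hε : 0 < ε) :
    ∃ r, PjS S r ∧ p * r = r ∧ ns ξ r ≤ ε := by
  obtain ⟨n, hn⟩ := exists_nat_gt (ns ξ p / ε)
  obtain ⟨r, h1, h2, h3⟩ := exists_small hno (ξ := ξ) hp n
  refine ⟨r, h1, h2, h3.trans ?_⟩
  have h4 : (n : ℝ) < 2 ^ n := by exact_mod_cast Nat.lt_two_pow_self
  rw [div_le_iff₀ (by positivity)]
  rw [div_lt_iff₀ hε] at hn
  nlinarith

/-- the families of the Zorn argument -/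
structure FamT (S : Set (ℋ →L[ℂ] ℋ)) (ξ : ι → ℋ) (d : ℝ) (A : Set (ℋ →L[ℂ] ℋ)) : Prop where
  mem : ∀ r ∈ A, PjS S r
  orth : ∀ r ∈ A, ∀ r' ∈ A, r ≠ r' → r * r' = 0
  tr : ∀ T : Finset (ℋ →L[ℂ] ℋ), (T : Set (ℋ →L[ℂ] ℋ)) ⊆ A → ∑ r ∈ T, ns ξ r ≤ d

theorem exists_maxT {d : ℝ} (hd : 0 ≤ d) :
    ∃ A, FamT S ξ d A ∧ ∀ B, FamT S ξ d B → A ⊆ B → B ⊆ A := by
  obtain ⟨A, hA⟩ := zorn_subset {A | FamT S ξ d A} (by
    intro c hc hch
    refine ⟨⋃₀ c, ⟨?_, ?_, ?_⟩, fun s hs => Set.subset_sUnion_of_mem hs⟩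
    · rintro v ⟨s, hs, hv⟩
      exact (hc hs).mem v hv
    · rintro v ⟨s, hs, hv⟩ v' ⟨s', hs', hv'⟩ hne
      rcases eq_or_ne s s' with rfl | hss
      · exact (hc hs).orth v hv v' hv' hne
      · rcases hch hs hs' hss with h | h
        · exact (hc hs').orth v (h hv) v' hv' hne
        · exact (hc hs).orth v hv v' (h hv') hne
    · intro T hT
      rcases T.eq_empty_or_nonempty with rfl | hTn
      · simpa using hd
      · obtain ⟨s, hs, hTs⟩ : ∃ s ∈ c, (T : Set (ℋ →L[ℂ] ℋ)) ⊆ s := by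
          have key : ∀ T : Finset (ℋ →L[ℂ] ℋ), T.Nonempty → (T : Set (ℋ →L[ℂ] ℋ)) ⊆ ⋃₀ c →
              ∃ s ∈ c, (T : Set (ℋ →L[ℂ] ℋ)) ⊆ s := by
            classical
            intro T hne
            induction hne using Finset.Nonempty.cons_induction with
            | singleton a =>
              intro h
              obtain ⟨s, hs, ha⟩ := h (by simp : a ∈ (({a} : Finset (ℋ →L[ℂ] ℋ)) : Set (ℋ →L[ℂ] ℋ)))
              exact ⟨s, hs, by simpa using ha⟩
            | cons a T ha hT ih =>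
              intro h
              rw [Finset.coe_cons] at h ⊢
              obtain ⟨s, hs, hTs⟩ := ih ((Set.subset_insert _ _).trans h)
              obtain ⟨s', hs', ha'⟩ := h (Set.mem_insert _ _)
              rcases eq_or_ne s s' with rfl | hss
              · exact ⟨s, hs, Set.insert_subset ha' hTs⟩
              · rcases hch hs hs' hss with h1 | h1
                · exact ⟨s', hs', Set.insert_subset ha' (hTs.trans h1)⟩
                · exact ⟨s, hs, Set.insert_subset (h1 ha') hTs⟩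
          exact key T hTn hT
        exact (hc hs).tr T hTs)
  exact ⟨A, hA.prop, fun B hB h => hA.le_of_ge hB h⟩

include hS hfa hno in
/-- **There are projections with every trace number.** -/
theorem exists_tr {d : ℝ} (h0 : 0 ≤ d) (h1 : d ≤ ∑ i, ‖ξ i‖ ^ 2) :
    ∃ P : ℋ →L[ℂ] ℋ, Cc S P ∧ adjoint P = P ∧ P * P = P ∧ ns ξ P = d := by
  classical
  obtain ⟨A, hA, hmax⟩ := exists_maxT (S := S) (ξ := ξ) h0
  obtain ⟨w, hw, hpi, hw1, hw2⟩ := exists_sum' (u := fun v : A => (v : ℋ →L[ℂ] ℋ))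
    (fun v => by
      change (v : ℋ →L[ℂ] ℋ) * adjoint (v : ℋ →L[ℂ] ℋ) * v = v
      rw [(hA.mem v v.2).adj, (hA.mem v v.2).sq, (hA.mem v v.2).sq])
    (fun i j hij => by
      change adjoint (i : ℋ →L[ℂ] ℋ) * (j : ℋ →L[ℂ] ℋ) = 0
      rw [(hA.mem i i.2).adj]
      exact hA.orth i i.2 j j.2 fun h => hij (Subtype.ext h))
    (fun i j hij => by
      change (i : ℋ →L[ℂ] ℋ) * adjoint (j : ℋ →L[ℂ] ℋ) = 0
      rw [(hA.mem j j.2).adj]
      exact hA.orth i i.2 j j.2 fun h => hij (Subtype.ext h))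
  have hwC : Cc S w := by
    intro s hs
    ext1 x
    refine (hw (s x)).unique ?_
    have b := s.hasSum (hw x)
    have c : (fun v : A => s ((v : ℋ →L[ℂ] ℋ) x)) = fun v : A => (v : ℋ →L[ℂ] ℋ) (s x) := by
      funext v
      exact (DFunLike.congr_fun ((hA.mem v v.2).cc s hs) x).symm
    rw [c] at b
    exact b
  have hwa : adjoint w = w := by
    symm
    rw [ContinuousLinearMap.eq_adjoint_iff]
    intro x y
    have a : HasSum (fun j : A => ⟪x, (j : ℋ →L[ℂ] ℋ) y⟫_ℂ) ⟪x, w y⟫_ℂ := by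
      have := (innerSL ℂ x).hasSum (hw y)
      simpa only [innerSL_apply_apply] using this
    have b : HasSum (fun j : A => ⟪(j : ℋ →L[ℂ] ℋ) x, y⟫_ℂ) ⟪w x, y⟫_ℂ := by
      have := Complex.hasSum_conj'.2 ((innerSL ℂ y).hasSum (hw x))
      simpa only [innerSL_apply_apply, inner_conj_symm] using this
    refine b.unique ?_
    have c : (fun j : A => ⟪(j : ℋ →L[ℂ] ℋ) x, y⟫_ℂ) = fun j : A => ⟪x, (j : ℋ →L[ℂ] ℋ) y⟫_ℂ := by
      funext j
      rw [← adjoint_inner_right, (hA.mem j j.2).adj]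
    rw [c]
    exact a
  have hww : w * w = w := by
    ext1 x
    change w (w x) = w x
    refine (hw (w x)).unique ?_
    have c : (fun v : A => (v : ℋ →L[ℂ] ℋ) (w x)) = fun v : A => (v : ℋ →L[ℂ] ℋ) x := by
      funext v
      have h2 := congrArg adjoint (hw1 v)
      rw [adj_mul', adj_adj', hwa, adj_mul', adj_adj', (hA.mem v v.2).adj, (hA.mem v v.2).sq] at h2
      exact DFunLike.congr_fun h2 x
    rw [c]
    exact hw x
  have hwv : ∀ v ∈ A, w * v = v := by
    intro v hv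
    have h2 := hw1 ⟨v, hv⟩
    change w * adjoint v = v * adjoint v at h2
    rwa [(hA.mem v hv).adj, (hA.mem v hv).sq] at h2
  -- the trace number of `w`
  have hns : ∀ {r : ℋ →L[ℂ] ℋ}, adjoint r = r → r * r = r → vf ξ r = (ns ξ r : ℂ) := by
    intro r ha hr
    rw [← vf_sq, ha, hr]
  have hsum : HasSum (fun v : A => ns ξ (v : ℋ →L[ℂ] ℋ)) (ns ξ w) := by
    have h2 : HasSum (fun v : A => vf ξ (v : ℋ →L[ℂ] ℋ)) (vf ξ w) := by
      refine hasSum_sum fun i _ => ?_
      have := (innerSL ℂ (ξ i)).hasSum (hw (ξ i))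
      simpa only [innerSL_apply_apply] using this
    rw [hns hwa hww] at h2
    have h3 : (fun v : A => vf ξ (v : ℋ →L[ℂ] ℋ)) = fun v : A => ((ns ξ (v : ℋ →L[ℂ] ℋ) : ℝ) : ℂ) := by
      funext v
      exact hns (hA.mem v v.2).adj (hA.mem v v.2).sq
    rw [h3] at h2
    exact_mod_cast h2
  have hfin : ∀ T : Finset A, ∑ v ∈ T, ns ξ (v : ℋ →L[ℂ] ℋ) ≤ d := by
    intro T
    have h2 := hA.tr (T.map (Function.Embedding.subtype _)) (by
      intro x hx
      simp only [Finset.coe_map, Function.Embedding.subtype_apply, Set.mem_image,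
        Finset.mem_coe] at hx
      obtain ⟨y, -, rfl⟩ := hx
      exact y.2)
    rw [Finset.sum_map] at h2
    exact h2
  have hle : ns ξ w ≤ d := hasSum_le_of_sum_le hsum hfin
  refine ⟨w, hwC, hwa, hww, ?_⟩
  by_contra hne
  have hlt : ns ξ w < d := lt_of_le_of_ne hle hne
  -- the complement
  have h1w : (1 : ℋ →L[ℂ] ℋ) - w ≠ 0 := by
    intro h
    have h2 : w = 1 := (sub_eq_zero.1 h).symm
    have h3 : ns ξ w = ∑ i, ‖ξ i‖ ^ 2 := by rw [h2]; rfl
    linarith
  have hP : PjS S (1 - w) := by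
    refine ⟨Cc.one.sub hwC, by rw [map_sub, hwa]; congr 1; exact star_one _, ?_, h1w⟩
    rw [sub_mul, one_mul, mul_sub, mul_one, hww, sub_self, sub_zero]
  obtain ⟨r, hr, hpr, hrε⟩ := exists_small' hno (ξ := ξ) hP (sub_pos.2 hlt)
  have hwr : w * r = 0 := by
    have : (1 - w) * r = r - w * r := by rw [sub_mul, one_mul]
    rw [this] at hpr
    have h2 : w * r = r - (r - w * r) := by abel
    rw [h2, hpr, sub_self]
  have hvr : ∀ v ∈ A, v * r = 0 := by
    intro v hv
    have h2 : v * w = v := by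
      have := congrArg adjoint (hwv v hv)
      rwa [adj_mul', hwa, (hA.mem v hv).adj] at this
    rw [← h2, mul_assoc, hwr, mul_zero]
  have hrv : ∀ v ∈ A, r * v = 0 := by
    intro v hv
    have := congrArg adjoint (hvr v hv)
    rwa [adj_mul', hr.adj, (hA.mem v hv).adj, map_zero] at this
  have hrA : r ∉ A := by
    intro h
    have := hvr r h
    rw [hr.sq] at this
    exact hr.ne this
  have hB : FamT S ξ d (insert r A) := by
    refine ⟨?_, ?_, ?_⟩
    · rintro v (rfl | hv)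
      · exact hr
      · exact hA.mem v hv
    · rintro v (rfl | hv) v' (rfl | hv') hne'
      · exact absurd rfl hne'
      · exact hrv v' hv'
      · exact hvr v hv
      · exact hA.orth v hv v' hv' hne'
    · intro T hT
      have h2 : ∑ v ∈ T, ns ξ v ≤ ns ξ r + ∑ v ∈ T.erase r, ns ξ v := by
        by_cases hrT : r ∈ T
        · rw [Finset.add_sum_erase _ _ hrT]
        · rw [Finset.erase_eq_of_notMem hrT]
          have := ns_nonneg (ξ := ξ) r
          linarith
      have h3 : ((T.erase r : Finset (ℋ →L[ℂ] ℋ)) : Set (ℋ →L[ℂ] ℋ)) ⊆ A := by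
        intro v hv
        rw [Finset.coe_erase] at hv
        rcases hT hv.1 with h | h
        · exact absurd h hv.2
        · exact h
      have h4 : ∑ v ∈ T.erase r, ns ξ v ≤ ns ξ w := by
        have h5 := sum_le_hasSum (Finset.subtype (fun v => v ∈ A) (T.erase r))
          (fun v _ => ns_nonneg (ξ := ξ) (v : ℋ →L[ℂ] ℋ)) hsum
        have h6 : ∑ v ∈ Finset.subtype (fun v => v ∈ A) (T.erase r), ns ξ (v : ℋ →L[ℂ] ℋ) =
            ∑ v ∈ T.erase r, ns ξ v :=
          Finset.sum_subtype_of_mem (fun v => ns ξ v) fun v hv => h3 hv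
        rw [← h6]
        exact h5
      linarith
  exact hrA (hmax _ hB (Set.subset_insert _ _) (Set.mem_insert _ _))

end gen

end Vale.Agent.P092.H678.OV
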