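import Vale.Agent.P092.H678.O.Sys

/-!
P092 (helper678), [OV]: restriction of a system to a subgroup of finite index.
-/

set_option linter.all false

open scoped InnerProductSpace ENNReal
open Filter Topology ContinuousLinearMap

namespace Vale.Agent.P092.H678.OV

open Vale.Agent.P092.SR (Tri)
open Vale.Agent.P092.H421.Hs

section grp

variable {Γ : Type} [Group Γ] (N : Subgroup Γ)

/-- `Γ = N · {c⁻¹}` for the representatives `c` of `Γ / N` -/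
noncomputable def eqN : (Γ ⧸ N) × N ≃ Γ :=
  Equiv.ofBijective (fun p => (p.2 : Γ) * (p.1.out)⁻¹) (by
    constructor
    · rintro ⟨a, n⟩ ⟨b, m⟩ h
      have h0 : (n : Γ) * (a.out)⁻¹ = (m : Γ) * (b.out)⁻¹ := h
      have h1 : a.out * (n : Γ)⁻¹ = b.out * (m : Γ)⁻¹ := by
        have := congrArg (fun x : Γ => x⁻¹) h0
        simpa [mul_inv_rev] using this
      have h2 : a = b := by
        rw [← QuotientGroup.out_eq' a, ← QuotientGroup.out_eq' b, QuotientGroup.eq]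
        have h3 : (a.out)⁻¹ * b.out = (n : Γ)⁻¹ * (m : Γ) := by
          have h4 : b.out = a.out * (n : Γ)⁻¹ * (m : Γ) := by rw [h1]; group
          rw [h4]; group
        rw [h3]
        exact N.mul_mem (N.inv_mem n.2) m.2
      subst h2
      have h5 : (n : Γ) = m := mul_right_cancel h0
      rw [Subtype.ext h5]
    · intro γ
      have h1 : ((γ⁻¹ : Γ) : Γ ⧸ N).out⁻¹ * γ⁻¹ ∈ N := by
        rw [← QuotientGroup.eq, QuotientGroup.out_eq']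
      have h2 : γ * ((γ⁻¹ : Γ) : Γ ⧸ N).out ∈ N := by
        have := N.inv_mem h1
        simpa [mul_inv_rev] using this
      refine ⟨(((γ⁻¹ : Γ) : Γ ⧸ N), ⟨_, h2⟩), ?_⟩
      change γ * ((γ⁻¹ : Γ) : Γ ⧸ N).out * (((γ⁻¹ : Γ) : Γ ⧸ N).out)⁻¹ = γ
      rw [mul_assoc, mul_inv_cancel, mul_one])

theorem eqN_apply (p : (Γ ⧸ N) × N) : eqN N p = (p.2 : Γ) * (p.1.out)⁻¹ := rfl

/-- the index bijection -/
noncomputable def eqT (κ : Type) : (κ × (Γ ⧸ N) × (Γ ⧸ N)) × N × N ≃ κ × Γ × Γ where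
  toFun p := (p.1.1, eqN N (p.1.2.1, p.2.1), eqN N (p.1.2.2, p.2.2))
  invFun q := ((q.1, ((eqN N).symm q.2.1).1, ((eqN N).symm q.2.2).1),
    ((eqN N).symm q.2.1).2, ((eqN N).symm q.2.2).2)
  left_inv p := by
    obtain ⟨⟨k, a, b⟩, n, m⟩ := p
    simp
  right_inv q := by
    obtain ⟨k, a, b⟩ := q
    simp

theorem eqT_apply (κ : Type) (k : κ) (a b : Γ ⧸ N) (n m : N) :
    eqT N κ ((k, a, b), n, m) = (k, (n : Γ) * (a.out)⁻¹, (m : Γ) * (b.out)⁻¹) := rfl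

end grp

section res

variable {Γ ℋ : Type} [Group Γ] [NormedAddCommGroup ℋ] [InnerProductSpace ℂ ℋ] [CompleteSpace ℋ]
  (N : Subgroup Γ)

/-- restriction -/
noncomputable abbrev rs (V : Γ →* (ℋ →L[ℂ] ℋ)) : N →* (ℋ →L[ℂ] ℋ) := V.comp N.subtype

variable {V R₁ R₂ R : Γ →* (ℋ →L[ℂ] ℋ)}

theorem ap_mul (U : Γ →* (ℋ →L[ℂ] ℋ)) (g h : Γ) (v : ℋ) : U (g * h) v = U g (U h v) := by
  rw [map_mul]; rfl

/-- the vectors of the restriction -/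
noncomputable def xi {κ : Type} (R₁ R₂ : Γ →* (ℋ →L[ℂ] ℋ)) (ξ : κ → ℋ) :
    κ × (Γ ⧸ N) × (Γ ⧸ N) → ℋ :=
  fun p => R₁ (p.2.1.out)⁻¹ (R₂ (p.2.2.out)⁻¹ (ξ p.1))

theorem comm_ap {A B : ℋ →L[ℂ] ℋ} (h : A * B = B * A) (v : ℋ) : A (B v) = B (A v) :=
  congrArg (fun S : ℋ →L[ℂ] ℋ => S v) h

theorem xi_ap {κ : Type} {ξ : κ → ℋ} (hc : ∀ g h, R₁ g * R₂ h = R₂ h * R₁ g)
    (p : κ × (Γ ⧸ N) × (Γ ⧸ N)) (n m : N) :
    rs N R₁ n (rs N R₂ m (xi N R₁ R₂ ξ p)) =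
      R₁ ((n : Γ) * (p.2.1.out)⁻¹) (R₂ ((m : Γ) * (p.2.2.out)⁻¹) (ξ p.1)) := by
  change R₁ (n : Γ) (R₂ (m : Γ) (R₁ (p.2.1.out)⁻¹ (R₂ (p.2.2.out)⁻¹ (ξ p.1)))) = _
  rw [← comm_ap (hc _ _), ap_mul, ap_mul]

theorem tri_res [N.FiniteIndex] {κ : Type} [Fintype κ] [Fintype (Γ ⧸ N)] {ξ : κ → ℋ}
    (h : Tri V R₁ R₂ ξ) :
    Tri (rs N V) (rs N R₁) (rs N R₂) (xi N R₁ R₂ ξ) where
  adjV g := by
    change adjoint (V g) = V ((g⁻¹ : N) : Γ)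
    rw [h.adjV]; rfl
  adj₁ g := by
    change adjoint (R₁ g) = R₁ ((g⁻¹ : N) : Γ)
    rw [h.adj₁]; rfl
  adj₂ g := by
    change adjoint (R₂ g) = R₂ ((g⁻¹ : N) : Γ)
    rw [h.adj₂]; rfl
  comm₁ g k := h.comm₁ _ _
  comm₂ g k := h.comm₂ _ _
  comm₁₂ g k := h.comm₁₂ _ _
  ne := by
    obtain ⟨k, hk⟩ := h.ne
    refine ⟨(k, ((1 : Γ) : Γ ⧸ N), ((1 : Γ) : Γ ⧸ N)), fun h0 => hk ?_⟩
    have h1 : ‖xi N R₁ R₂ ξ (k, ((1 : Γ) : Γ ⧸ N), ((1 : Γ) : Γ ⧸ N))‖ = ‖ξ k‖ := by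
      rw [xi, norm_U h.adj₁, norm_U h.adj₂]
    rw [h0, norm_zero] at h1
    exact norm_eq_zero.1 h1.symm
  frame η := by
    have h1 := (eqT N κ).hasSum_iff.2 (h.frame η)
    refine h1.congr_fun ?_ |> id
    rintro ⟨p, n, m⟩
    change ‖⟪rs N R₁ n (rs N R₂ m (xi N R₁ R₂ ξ p)), η⟫_ℂ‖ ^ 2 = _
    rw [xi_ap N h.comm₁₂]
    rfl

theorem hon_res {κ : Type} {ξ : κ → ℋ} (hc : ∀ g h, R₁ g * R₂ h = R₂ h * R₁ g)
    (ha₁ : ∀ g, adjoint (R₁ g) = R₁ g⁻¹) (ha₂ : ∀ g, adjoint (R₂ g) = R₂ g⁻¹)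
    (hh : ∀ γ : Γ, γ ≠ 1 → ∀ γ' i j, ⟪R₁ γ (R₂ γ' (ξ i)), ξ j⟫_ℂ = 0) :
    ∀ γ : N, γ ≠ 1 → ∀ γ' i j, ⟪rs N R₁ γ (rs N R₂ γ' (xi N R₁ R₂ ξ i)), xi N R₁ R₂ ξ j⟫_ℂ = 0 := by
  intro n hn m p q
  rw [xi_ap N hc]
  change ⟪R₁ ((n : Γ) * (p.2.1.out)⁻¹) (R₂ ((m : Γ) * (p.2.2.out)⁻¹) (ξ p.1)),
    R₁ (q.2.1.out)⁻¹ (R₂ (q.2.2.out)⁻¹ (ξ q.1))⟫_ℂ = 0
  rw [← ha₁, adjoint_inner_right, ← ap_mul, comm_ap (hc _ _), ← ha₂, adjoint_inner_right,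
    ← ap_mul, ← comm_ap (hc _ _)]
  refine hh _ ?_ _ _ _
  intro h
  -- `c n d⁻¹ = 1`
  have h1 : q.2.1.out * (n : Γ) = p.2.1.out := by
    have := congrArg (fun x => x * p.2.1.out) h
    simpa [mul_assoc] using this
  have h2 : q.2.1 = p.2.1 := by
    rw [← QuotientGroup.out_eq' q.2.1, ← QuotientGroup.out_eq' p.2.1, QuotientGroup.eq, ← h1]
    simp
  rw [h2] at h1
  have h3 : (n : Γ) = 1 := mul_eq_left.1 h1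
  exact hn (Subtype.ext h3)

theorem htri_res [N.FiniteIndex] (h : HTri V R₁ R₂) : HTri (rs N V) (rs N R₁) (rs N R₂) := by
  obtain ⟨κ, _, ξ, h1, h2⟩ := h
  haveI : Finite (Γ ⧸ N) := Subgroup.finite_quotient_of_finiteIndex
  letI : Fintype (Γ ⧸ N) := Fintype.ofFinite _
  exact ⟨_, inferInstance, _, tri_res N h1, hon_res N h1.comm₁₂ h1.adj₁ h1.adj₂ h2⟩

theorem gtri_res [N.FiniteIndex] (h : GTri V R₁ R₂) : GTri (rs N V) (rs N R₁) (rs N R₂) := by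
  obtain ⟨κ, _, ξ, h1⟩ := h
  haveI : Finite (Γ ⧸ N) := Subgroup.finite_quotient_of_finiteIndex
  letI : Fintype (Γ ⧸ N) := Fintype.ofFinite _
  exact ⟨_, inferInstance, _, tri_res N h1⟩

/-! ### The mixing frame -/

/-- there is a mixing frame -/
def Msq (V R : Γ →* (ℋ →L[ℂ] ℋ)) : Prop := ∃ (Q : Type) (e : Q → ℋ), Frq R e ∧ Mixq V R e

theorem hsq_of [Infinite Γ] (hVa : ∀ g, adjoint (V g) = V g⁻¹) (hRa : ∀ g, adjoint (R g) = R g⁻¹)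
    (hVR : ∀ g h, V g * R h = R h * V g) (h : Msq V R) : Hsq V R := by
  obtain ⟨Q, e, he, hm⟩ := h
  intro Q' e' he' A hV hR hf
  refine zero_of_mix hVa hRa hVR he hm hV hR ?_
  rw [trq_indep hRa he' he hR]
  exact hf

theorem frq_res {Q : Type} {e : Q → ℋ} (h : Frq R e) :
    Frq (rs N R) (fun p : Q × (Γ ⧸ N) => R (p.2.out)⁻¹ (e p.1)) := by
  intro η
  have h1 := h η
  rw [← h1]
  rw [← (((Equiv.prodAssoc Q (Γ ⧸ N) N).trans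
    (Equiv.prodCongr (Equiv.refl Q) (eqN N))).tsum_eq
      (fun p : Q × Γ => ‖⟪R p.2 (e p.1), η⟫_ℂ‖ₑ ^ 2))]
  refine tsum_congr ?_
  rintro ⟨⟨q, a⟩, n⟩
  change ‖⟪R (n : Γ) (R (a.out)⁻¹ (e q)), η⟫_ℂ‖ₑ ^ 2 = ‖⟪R ((n : Γ) * (a.out)⁻¹) (e q), η⟫_ℂ‖ₑ ^ 2
  rw [ap_mul]

theorem msq_res (hRa : ∀ g, adjoint (R g) = R g⁻¹) (hVR : ∀ g h, V g * R h = R h * V g)
    (h : Msq V R) : Msq (rs N V) (rs N R) := by
  obtain ⟨Q, e, he, hm⟩ := h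
  refine ⟨_, _, frq_res N he, ?_⟩
  rintro ⟨q, c⟩ ⟨q₀, d⟩
  have h1 := (hm q q₀).comp (Subtype.coe_injective (p := fun x => x ∈ N)).tendsto_cofinite
  refine tendsto_of_tendsto_of_tendsto_of_le_of_le tendsto_const_nhds h1 (fun _ => bot_le) ?_
  intro g
  change ∑' b : N, ‖⟪R (b : Γ) (R (c.out)⁻¹ (e q)), V (g : Γ) (R (d.out)⁻¹ (e q₀))⟫_ℂ‖ₑ ^ 2 ≤
    ∑' b : Γ, ‖⟪R b (e q), V (g : Γ) (e q₀)⟫_ℂ‖ₑ ^ 2
  have h2 : ∀ b : N, ‖⟪R (b : Γ) (R (c.out)⁻¹ (e q)), V (g : Γ) (R (d.out)⁻¹ (e q₀))⟫_ℂ‖ₑ ^ 2 =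
      (fun b : Γ => ‖⟪R b (e q), V (g : Γ) (e q₀)⟫_ℂ‖ₑ ^ 2) (d.out * (b * (c.out)⁻¹)) := by
    intro b
    change _ = ‖⟪R (d.out * (b * (c.out)⁻¹)) (e q), V (g : Γ) (e q₀)⟫_ℂ‖ₑ ^ 2
    rw [comm_ap (hVR _ _), ← hRa d.out, adjoint_inner_right, ← ap_mul, ← ap_mul, mul_assoc]
  simp_rw [h2]
  exact ENNReal.tsum_comp_le_tsum_of_injective (fun b b' hb => by
    have h3 : d.out * ((b : Γ) * (c.out)⁻¹) = d.out * ((b' : Γ) * (c.out)⁻¹) := hb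
    exact Subtype.ext (mul_right_cancel (mul_left_cancel h3))) _

end res

end Vale.Agent.P092.H678.OV
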