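import Vale.Agent.P092.H678.O.Hon
import Vale.Agent.P092.H678.O.Cmp
import Vale.Agent.P092.H678.O.Cut

/-!
P092 (helper678), [OV]: the transfer of systems to subgroups of finite index.
-/

set_option linter.all false

open scoped InnerProductSpace ENNReal
open ContinuousLinearMap Filter Topology

namespace Vale.Agent.P092.H678.OV

open Vale.Agent.P092.H962.Eq
open Vale.Agent.P092.SR (Tri)
open Vale.Agent.P092.H421.Hs (Frq trq Mixq Pf ana)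

/-- Subgroups of finite index of ICC groups are ICC. -/
theorem icc_fi {Γ : Type} [Group Γ] (h : Icc Γ) (Δ : Subgroup Γ) [Δ.FiniteIndex] : Icc Δ := by
  intro g hg hfin
  have hg' : (g : Γ) ≠ 1 := fun h => hg (Subtype.ext h)
  haveI : Finite (Γ ⧸ Δ) := Subgroup.finite_quotient_of_finiteIndex
  refine h g hg' ?_
  have h1 : (⋃ q : Γ ⧸ Δ, (fun y : Δ => q.out * (y : Γ) * q.out⁻¹) ''
      {y : Δ | ∃ h, y = h * g * h⁻¹}).Finite := Set.finite_iUnion fun q => hfin.image _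
  refine h1.subset ?_
  rintro _ ⟨x, rfl⟩
  have h2 : (QuotientGroup.mk (QuotientGroup.mk x : Γ ⧸ Δ).out : Γ ⧸ Δ) = QuotientGroup.mk x :=
    Quotient.out_eq' _
  have h3 : ((QuotientGroup.mk x : Γ ⧸ Δ).out)⁻¹ * x ∈ Δ := QuotientGroup.eq.1 h2
  refine Set.mem_iUnion.2 ⟨QuotientGroup.mk x, _, ⟨⟨_, h3⟩, rfl⟩, ?_⟩
  show _ * (_ * x * (g : Γ) * (_ * x)⁻¹) * _ = _
  group

theorem infinite_fi {Γ : Type} [Group Γ] [Infinite Γ] (Δ : Subgroup Γ) [Δ.FiniteIndex] :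
    Infinite Δ := by
  by_contra h
  haveI : Finite Δ := not_infinite_iff_finite.1 h
  haveI : Finite (Γ ⧸ Δ) := Subgroup.finite_quotient_of_finiteIndex
  haveI : Finite Γ := Finite.of_equiv _ (eqN Δ)
  exact not_finite Γ

section proj

variable {ℋ : Type} [NormedAddCommGroup ℋ] [InnerProductSpace ℂ ℋ] [CompleteSpace ℋ]

/-- a projection as an isometry from its range -/
theorem exists_W {p : ℋ →L[ℂ] ℋ} (ha : adjoint p = p) (hp : p * p = p) (h0 : p ≠ 0) :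
    ∃ (L : Type) (_ : NormedAddCommGroup L) (_ : InnerProductSpace ℂ L) (_ : CompleteSpace L)
      (_ : Nontrivial L) (W : L →L[ℂ] ℋ), (∀ v, adjoint W (W v) = v) ∧
        ∀ v, W (adjoint W v) = p v := by
  set L : Submodule ℂ ℋ := LinearMap.ker ((1 - p : ℋ →L[ℂ] ℋ) : ℋ →ₗ[ℂ] ℋ) with hL
  have hm : ∀ v, v ∈ L ↔ p v = v := by
    intro v
    rw [hL, LinearMap.mem_ker]
    change v - p v = 0 ↔ _
    rw [sub_eq_zero, eq_comm]
  haveI : CompleteSpace L := (ContinuousLinearMap.isClosed_ker (1 - p)).completeSpace_coe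
  have hpp : ∀ v, p (p v) = p v := fun v => DFunLike.congr_fun hp v
  have hnt : Nontrivial L := by
    obtain ⟨v, hv⟩ : ∃ v, p v ≠ 0 := by
      by_contra h
      push Not at h
      exact h0 (by ext1 v; exact h v)
    exact ⟨⟨p v, (hm _).2 (hpp v)⟩, 0, fun h => hv (congrArg Subtype.val h)⟩
  refine ⟨L, inferInstance, inferInstance, inferInstance, hnt, L.subtypeL, fun v => ?_, fun v => ?_⟩
  · refine ext_inner_right ℂ fun w => ?_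
    rw [adjoint_inner_left]
    rfl
  · have h1 : ∀ w : L, ⟪((adjoint L.subtypeL v : L) : ℋ), (w : ℋ)⟫_ℂ = ⟪v, (w : ℋ)⟫_ℂ := by
      intro w
      change ⟪adjoint L.subtypeL v, w⟫_ℂ = _
      rw [adjoint_inner_left]
      rfl
    have h2 : ((adjoint L.subtypeL v : L) : ℋ) - p v ∈ L :=
      L.sub_mem (adjoint L.subtypeL v : L).2 ((hm _).2 (hpp v))
    have h3 : ⟪((adjoint L.subtypeL v : L) : ℋ) - p v,
        ((adjoint L.subtypeL v : L) : ℋ) - p v⟫_ℂ = 0 := by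
      rw [inner_sub_left]
      have h4 := h1 ⟨_, h2⟩
      change ⟪((adjoint L.subtypeL v : L) : ℋ), ((adjoint L.subtypeL v : L) : ℋ) - p v⟫_ℂ =
        ⟪v, ((adjoint L.subtypeL v : L) : ℋ) - p v⟫_ℂ at h4
      rw [h4, sub_eq_zero]
      have h5 : p (((adjoint L.subtypeL v : L) : ℋ) - p v) =
          ((adjoint L.subtypeL v : L) : ℋ) - p v := (hm _).1 h2
      conv_lhs => rw [← h5]
      rw [← adjoint_inner_left, ha]
    change ((adjoint L.subtypeL v : L) : ℋ) = p v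
    exact sub_eq_zero.1 (inner_self_eq_zero.1 h3)

end proj

section tra

variable {Γ ℋ : Type} [Group Γ] [NormedAddCommGroup ℋ] [InnerProductSpace ℂ ℋ] [CompleteSpace ℋ]

/-- a system with mixing frames instead of honest families -/
structure Sys0 (V R₁ R₂ : Γ →* (ℋ →L[ℂ] ℋ)) : Prop where
  basis : ∃ (B : Type) (_ : Countable B), Nonempty (HilbertBasis B ℂ ℋ)
  g₀ : GTri V R₁ R₂
  g₁ : GTri R₁ V R₂
  g₂ : GTri R₂ V R₁
  irr : ∀ A : ℋ →L[ℂ] ℋ, (∀ v, A * V v = V v * A) → (∀ g, A * R₁ g = R₁ g * A) →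
    (∀ g, A * R₂ g = R₂ g * A) → ∃ z : ℂ, A = z • (1 : ℋ →L[ℂ] ℋ)
  m₁ : Msq V R₁
  m₂ : Msq V R₂

/-- the product representation -/
noncomputable def rho3 {V R₁ R₂ : Γ →* (ℋ →L[ℂ] ℋ)} (h₁ : ∀ g h, V g * R₁ h = R₁ h * V g)
    (h₂ : ∀ g h, V g * R₂ h = R₂ h * V g) (h₁₂ : ∀ g h, R₁ g * R₂ h = R₂ h * R₁ g) :
    Γ × Γ × Γ →* (ℋ →L[ℂ] ℋ) where
  toFun x := V x.1 * (R₁ x.2.1 * R₂ x.2.2)
  map_one' := by
    change V 1 * (R₁ 1 * R₂ 1) = 1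
    rw [map_one, map_one, map_one, one_mul, one_mul]
  map_mul' x y := by
    change V (x.1 * y.1) * (R₁ (x.2.1 * y.2.1) * R₂ (x.2.2 * y.2.2)) =
      (V x.1 * (R₁ x.2.1 * R₂ x.2.2)) * (V y.1 * (R₁ y.2.1 * R₂ y.2.2))
    rw [map_mul, map_mul, map_mul]
    have e1 : (R₁ x.2.1 * R₂ x.2.2) * V y.1 = V y.1 * (R₁ x.2.1 * R₂ x.2.2) := by
      rw [mul_assoc, ← h₂, ← mul_assoc, ← h₁, mul_assoc]
    calc V x.1 * V y.1 * (R₁ x.2.1 * R₁ y.2.1 * (R₂ x.2.2 * R₂ y.2.2))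
        = V x.1 * V y.1 * (R₁ x.2.1 * (R₁ y.2.1 * R₂ x.2.2) * R₂ y.2.2) := by
          simp only [mul_assoc]
      _ = V x.1 * (V y.1 * (R₁ x.2.1 * R₂ x.2.2)) * (R₁ y.2.1 * R₂ y.2.2) := by
          rw [h₁₂]; simp only [mul_assoc]
      _ = _ := by rw [← e1]; simp only [mul_assoc]

theorem gtri_swap {V R₁ R₂ : Γ →* (ℋ →L[ℂ] ℋ)} (h : GTri V R₁ R₂) : GTri V R₂ R₁ := by
  obtain ⟨κ, _, ξ, h⟩ := h
  refine ⟨κ, inferInstance, ξ, h.adjV, h.adj₂, h.adj₁, h.comm₂, h.comm₁,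
    fun a b => (h.comm₁₂ b a).symm, h.ne, fun η => ?_⟩
  have h1 := (Equiv.prodCongr (Equiv.refl κ) (Equiv.prodComm Γ Γ)).hasSum_iff.2 (h.frame η)
  refine h1.congr_fun ?_ |> id
  rintro ⟨k, a, b⟩
  change ‖⟪R₂ a (R₁ b (ξ k)), η⟫_ℂ‖ ^ 2 = ‖⟪R₁ b (R₂ a (ξ k)), η⟫_ℂ‖ ^ 2
  rw [comm_ap (h.comm₁₂ b a)]

/-- **The transfer**: a subgroup of finite index has a system in a closed invariant subspace. -/
theorem exists_sys [Infinite Γ] [Nontrivial ℋ] (hΓ : Icc Γ) {V R₁ R₂ : Γ →* (ℋ →L[ℂ] ℋ)}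
    (h : Sys0 V R₁ R₂) (N : Subgroup Γ) [N.FiniteIndex] :
    ∃ (L : Type) (_ : NormedAddCommGroup L) (_ : InnerProductSpace ℂ L) (_ : CompleteSpace L)
      (W : L →L[ℂ] ℋ) (hV : Iso W (rs N V)) (h₁ : Iso W (rs N R₁)) (h₂ : Iso W (rs N R₂)),
      Sys (cmp hV) (cmp h₁) (cmp h₂) := by
  obtain ⟨κ, _, ξ, hT⟩ := h.g₀
  haveI : Infinite N := infinite_fi N
  have hN : Icc N := icc_fi hΓ N
  set ρ := rho3 hT.comm₁ hT.comm₂ hT.comm₁₂ with hρ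
  set M : Subgroup (Γ × Γ × Γ) := N.prod (N.prod N) with hM
  haveI : (N.prod N).FiniteIndex := ⟨by
    rw [Subgroup.index_prod]
    exact mul_ne_zero Subgroup.FiniteIndex.index_ne_zero Subgroup.FiniteIndex.index_ne_zero⟩
  haveI : M.FiniteIndex := ⟨by
    rw [hM, Subgroup.index_prod]
    exact mul_ne_zero Subgroup.FiniteIndex.index_ne_zero Subgroup.FiniteIndex.index_ne_zero⟩
  haveI : Finite ((Γ × Γ × Γ) ⧸ M) := Subgroup.finite_quotient_of_finiteIndex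
  letI : Fintype ((Γ × Γ × Γ) ⧸ M) := Fintype.ofFinite _
  have hadj : ∀ g, adjoint (ρ g) = ρ g⁻¹ := by
    intro g
    change adjoint (V g.1 * (R₁ g.2.1 * R₂ g.2.2)) = V (g.1)⁻¹ * (R₁ (g.2.1)⁻¹ * R₂ (g.2.2)⁻¹)
    rw [adj_mul', adj_mul', hT.adjV, hT.adj₁, hT.adj₂, ← hT.comm₁₂, mul_assoc, ← hT.comm₂,
      ← mul_assoc, ← hT.comm₁, mul_assoc]
  have hV' : ∀ g, ρ (g, 1, 1) = V g := fun g => by
    change V g * (R₁ 1 * R₂ 1) = V g
    rw [map_one, map_one, mul_one, mul_one]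
  have hR₁' : ∀ g, ρ (1, g, 1) = R₁ g := fun g => by
    change V 1 * (R₁ g * R₂ 1) = R₁ g
    rw [map_one, map_one, mul_one, one_mul]
  have hR₂' : ∀ g, ρ (1, 1, g) = R₂ g := fun g => by
    change V 1 * (R₁ 1 * R₂ g) = R₂ g
    rw [map_one, map_one, one_mul, one_mul]
  obtain ⟨p, hp, hsc⟩ := exists_cut (M := M) hadj (fun A hA => h.irr A
    (fun v => by have := hA (v, 1, 1); rwa [hV'] at this)
    (fun v => by have := hA (1, v, 1); rwa [hR₁'] at this)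
    (fun v => by have := hA (1, 1, v); rwa [hR₂'] at this))
  have pV : ∀ n : N, p * V n = V n * p := fun n => by
    have := hp.cc _ ⟨((n : Γ), 1, 1), ⟨n.2, N.one_mem, N.one_mem⟩, rfl⟩
    rwa [hV'] at this
  have pR₁ : ∀ n : N, p * R₁ n = R₁ n * p := fun n => by
    have := hp.cc _ ⟨(1, (n : Γ), 1), ⟨N.one_mem, n.2, N.one_mem⟩, rfl⟩
    rwa [hR₁'] at this
  have pR₂ : ∀ n : N, p * R₂ n = R₂ n * p := fun n => by
    have := hp.cc _ ⟨(1, 1, (n : Γ)), ⟨N.one_mem, N.one_mem, n.2⟩, rfl⟩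
    rwa [hR₂'] at this
  obtain ⟨L, _, _, _, _, W, hW1, hW2⟩ := exists_W hp.adj hp.sq hp.ne
  have iV : Iso W (rs N V) := ⟨hW1, fun n v => by
    rw [hW2, hW2]; exact DFunLike.congr_fun (pV n) v⟩
  have i₁ : Iso W (rs N R₁) := ⟨hW1, fun n v => by
    rw [hW2, hW2]; exact DFunLike.congr_fun (pR₁ n) v⟩
  have i₂ : Iso W (rs N R₂) := ⟨hW1, fun n v => by
    rw [hW2, hW2]; exact DFunLike.congr_fun (pR₂ n) v⟩
  have g0 : GTri (cmp iV) (cmp i₁) (cmp i₂) := gtri_cmp iV i₁ i₂ (gtri_res N h.g₀)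
  have hrV : ∀ n, adjoint (rs N V n) = rs N V n⁻¹ := fun n => hT.adjV n
  have hr₁ : ∀ n, adjoint (rs N R₁ n) = rs N R₁ n⁻¹ := fun n => hT.adj₁ n
  have hr₂ : ∀ n, adjoint (rs N R₂ n) = rs N R₂ n⁻¹ := fun n => hT.adj₂ n
  have s₁ : Msq (rs N V) (rs N R₁) := msq_res N hT.adj₁ hT.comm₁ h.m₁
  have s₂ : Msq (rs N V) (rs N R₂) := msq_res N hT.adj₂ hT.comm₂ h.m₂
  refine ⟨L, inferInstance, inferInstance, inferInstance, W, iV, i₁, i₂, basis_cmp iV h.basis,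
    htri_of_gtri hN g0, htri_of_gtri hN (gtri_swap g0), gtri_cmp i₁ iV i₂ (gtri_res N h.g₁),
    gtri_cmp i₂ iV i₁ (gtri_res N h.g₂), irr_cmp iV i₁ i₂ ?_, ?_, ?_⟩
  · intro A hA hA₁ hA₂
    obtain ⟨z, hz⟩ := hsc A (by
      rintro _ ⟨⟨a, b, c⟩, ⟨ha, hb, hc⟩, rfl⟩
      change A * (V a * (R₁ b * R₂ c)) = (V a * (R₁ b * R₂ c)) * A
      have e1 : A * V a = V a * A := hA ⟨a, ha⟩
      have e2 : A * R₁ b = R₁ b * A := hA₁ ⟨b, hb⟩
      have e3 : A * R₂ c = R₂ c * A := hA₂ ⟨c, hc⟩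
      rw [← mul_assoc, e1, mul_assoc, ← mul_assoc A, e2, mul_assoc (R₁ b), e3]
      simp only [mul_assoc])
    refine ⟨z, fun v => ?_⟩
    rw [hW2, hW2]
    exact DFunLike.congr_fun hz v
  · obtain ⟨Q, e, he, -⟩ := id s₁
    exact hsq_cmp iV i₁ hr₁ ⟨Q, e, he⟩ (hsq_of hrV hr₁ (fun a b => hT.comm₁ a b) s₁)
  · obtain ⟨Q, e, he, -⟩ := id s₂
    exact hsq_cmp iV i₂ hr₂ ⟨Q, e, he⟩ (hsq_of hrV hr₂ (fun a b => hT.comm₂ a b) s₂)

/-- **Overlap goes up.** -/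
theorem over_up {V R₁ R₂ : Γ →* (ℋ →L[ℂ] ℋ)} (N : Subgroup Γ) [N.FiniteIndex] {L : Type}
    [NormedAddCommGroup L] [InnerProductSpace ℂ L] [CompleteSpace L] {W : L →L[ℂ] ℋ}
    (hVa : ∀ g, adjoint (V g) = V g⁻¹)
    {hV : Iso W (rs N V)} {h₁ : Iso W (rs N R₁)} {h₂ : Iso W (rs N R₂)}
    (h : OverV (cmp hV) (cmp h₁) (cmp h₂)) : OverV V R₁ R₂ := by
  classical
  obtain ⟨r, ζ, κ, hκ, hz⟩ := h
  haveI : Finite (Γ ⧸ N) := Subgroup.finite_quotient_of_finiteIndex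
  letI : Fintype (Γ ⧸ N) := Fintype.ofFinite _
  -- the vectors `V (c) (W ζ i)` and `W ζ j`
  set I := (Γ ⧸ N) × Fin r ⊕ Fin r with hI
  set ζ' : I → ℋ := fun x => match x with
    | .inl y => V (y.1.out) (W (ζ y.2))
    | .inr j => W (ζ j) with hζ'
  have key : ∀ g, ∃ i j, ∃ a b : Γ, κ ≤ ‖⟪V g (ζ' i), R₁ a (R₂ b (ζ' j))⟫_ℂ‖ := by
    intro g
    -- `g = n c⁻¹`
    obtain ⟨⟨c, n⟩, hg⟩ := (eqN N).surjective g
    obtain ⟨i, j, a, b, hab⟩ := hz n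
    refine ⟨.inl (c, i), .inr j, a, b, ?_⟩
    change κ ≤ ‖⟪V g (V (c.out) (W (ζ i))), R₁ a (R₂ b (W (ζ j)))⟫_ℂ‖
    rw [← hg, eqN_apply, ← ap_mul, inv_mul_cancel_right]
    have e1 : V (n : Γ) (W (ζ i)) = W (cmp hV n (ζ i)) := (W_cmp hV n (ζ i)).symm
    have e2 : R₁ (a : Γ) (R₂ (b : Γ) (W (ζ j))) = W (cmp h₁ a (cmp h₂ b (ζ j))) := by
      rw [W_cmp h₁, W_cmp h₂]; rfl
    rw [e1, e2, ← adjoint_inner_right, hV.one]
    exact hab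
  refine ⟨Fintype.card I, fun i => ζ' ((Fintype.equivFin I).symm i), κ, hκ, fun g => ?_⟩
  obtain ⟨i, j, a, b, hab⟩ := key g
  refine ⟨Fintype.equivFin I i, Fintype.equivFin I j, a, b, ?_⟩
  simp only [Equiv.symm_apply_apply]
  exact hab

end tra

end Vale.Agent.P092.H678.OV
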